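import Crest.Agent.N336.Q.Spec
import Crest.Prelude.Def_LatticeSpin

-- ▼ part N336/Q/Sys
section

/-!
# Row 336, core: spin systems with site dependent local spaces (helper87)

* `Cfg d`, `Op d` ; `emb e m = m ⊗ 1` along an embedding of sites `e`, `red e ω` = partial trace
* `Supp X M` : `M` is supported on `X`;  `lift X = emb (sb X)`, `red (sb X)`
* `dim d X = ∏ x ∈ X, card (d x)`
-/

set_option autoImplicit false
set_option linter.unusedSectionVars false

open Matrix Finset
open scoped Kronecker ComplexOrder MatrixOrder Matrix.Norms.L2Operator InnerProductSpace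

namespace Crest.Agent.N336.Q

variable {ι κ μ : Type} [Fintype ι] [DecidableEq ι] [Fintype κ] [DecidableEq κ]
  [Fintype μ] [DecidableEq μ] {d : ι → Type} [∀ x, Fintype (d x)] [∀ x, DecidableEq (d x)]

/-- configurations -/
abbrev Cfg (d : ι → Type) : Type := ∀ x, d x

/-- operators -/
abbrev Op (d : ι → Type) : Type := Matrix (Cfg d) (Cfg d) ℂ

/-- `σ` and `τ` agree outside `X` -/
def Agree (X : Finset ι) (σ τ : Cfg d) : Prop := ∀ x, x ∉ X → σ x = τ x

instance (X : Finset ι) (σ τ : Cfg d) : Decidable (Agree X σ τ) := by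
  unfold Agree; infer_instance

lemma Agree.refl (X : Finset ι) (σ : Cfg d) : Agree X σ σ := fun _ _ => rfl

lemma Agree.symm {X : Finset ι} {σ τ : Cfg d} (h : Agree X σ τ) : Agree X τ σ :=
  fun x hx => (h x hx).symm

lemma Agree.trans {X : Finset ι} {σ τ υ : Cfg d} (h : Agree X σ τ) (h' : Agree X τ υ) :
    Agree X σ υ := fun x hx => (h x hx).trans (h' x hx)

lemma Agree.mono {X Y : Finset ι} {σ τ : Cfg d} (h : Agree X σ τ) (hXY : X ⊆ Y) : Agree Y σ τ :=
  fun x hx => h x fun h' => hx (hXY h')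

lemma agree_comm {X : Finset ι} {σ τ : Cfg d} : Agree X σ τ ↔ Agree X τ σ := ⟨.symm, .symm⟩

/-- range of an embedding of sites -/
def rg (e : κ ↪ ι) : Finset ι := univ.map e

@[simp] lemma mem_rg {e : κ ↪ ι} {x : ι} : x ∈ rg e ↔ ∃ k, e k = x := by simp [rg]

lemma apply_mem_rg (e : κ ↪ ι) (k : κ) : e k ∈ rg e := mem_rg.2 ⟨k, rfl⟩

lemma rg_trans (e' : μ ↪ κ) (e : κ ↪ ι) : rg (e'.trans e) = (rg e').map e := by
  simp [rg, Finset.map_map]

/-- local spaces of the subsystem -/
abbrev sub (e : κ ↪ ι) (d : ι → Type) : κ → Type := fun k => d (e k)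

/-- configurations outside `X` -/
abbrev Rest (X : Finset ι) (d : ι → Type) : Type := ∀ x : {x // x ∉ X}, d x

/-- restriction of a configuration -/
def res (e : κ ↪ ι) (σ : Cfg d) : Cfg (sub e d) := fun k => σ (e k)

/-- restriction to the complement -/
def off (X : Finset ι) (σ : Cfg d) : Rest X d := fun x => σ x

lemma off_eq_iff {X : Finset ι} {σ τ : Cfg d} : off X σ = off X τ ↔ Agree X σ τ :=
  ⟨fun h x hx => congrFun h ⟨x, hx⟩, fun h => funext fun x => h x x.2⟩

lemma res_eq_iff {e : κ ↪ ι} {σ τ : Cfg d} : res e σ = res e τ ↔ ∀ x ∈ rg e, σ x = τ x :=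
  ⟨fun h x hx => by obtain ⟨k, rfl⟩ := mem_rg.1 hx; exact congrFun h k,
    fun h => funext fun k => h _ (apply_mem_rg e k)⟩

/-- a configuration is a pair (inside, outside) -/
noncomputable def eqv (e : κ ↪ ι) (d : ι → Type) : Cfg d ≃ Cfg (sub e d) × Rest (rg e) d :=
  Equiv.ofBijective (fun σ => (res e σ, off (rg e) σ)) <| by
    constructor
    · intro σ τ h
      obtain ⟨h1, h2⟩ := Prod.mk.inj h
      funext x
      by_cases hx : x ∈ rg e
      · obtain ⟨k, rfl⟩ := mem_rg.1 hx; exact congrFun h1 k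
      · exact congrFun h2 ⟨x, hx⟩
    · rintro ⟨a, r⟩
      have : ∀ x, x ∈ rg e → ∃ y : d x, ∀ k (hk : e k = x), hk ▸ a k = y := by
        intro x hx
        obtain ⟨k0, rfl⟩ := mem_rg.1 hx
        refine ⟨a k0, fun k hk => ?_⟩
        obtain rfl := e.injective hk
        rfl
      choose y hy using this
      refine ⟨fun x => if h : x ∈ rg e then y x h else r ⟨x, h⟩, Prod.ext ?_ ?_⟩
      · funext k
        simp only [res, apply_mem_rg, dif_pos]
        exact (hy _ _ k rfl).symm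
      · funext x
        simp only [off, x.2, dif_neg, not_false_eq_true]

@[simp] lemma eqv_apply (e : κ ↪ ι) (σ : Cfg d) : eqv e d σ = (res e σ, off (rg e) σ) := rfl

@[simp] lemma res_symm (e : κ ↪ ι) (p : Cfg (sub e d) × Rest (rg e) d) :
    res e ((eqv e d).symm p) = p.1 := congrArg Prod.fst ((eqv e d).apply_symm_apply p)

@[simp] lemma off_symm (e : κ ↪ ι) (p : Cfg (sub e d) × Rest (rg e) d) :
    off (rg e) ((eqv e d).symm p) = p.2 := congrArg Prod.snd ((eqv e d).apply_symm_apply p)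

/-- `m ⊗ 1` -/
noncomputable def emb (e : κ ↪ ι) : Op (sub e d) →⋆ₐ[ℂ] Op d where
  toFun m := (m ⊗ₖ (1 : Matrix (Rest (rg e) d) (Rest (rg e) d) ℂ)).submatrix (eqv e d) (eqv e d)
  map_one' := by simp
  map_mul' a b := by
    rw [submatrix_mul_equiv, ← mul_kronecker_mul, Matrix.mul_one]
  map_zero' := by simp
  map_add' a b := by rw [add_kronecker]; rfl
  commutes' c := by
    simp only [Algebra.algebraMap_eq_smul_one, smul_kronecker, one_kronecker_one,
      submatrix_smul, Pi.smul_apply, submatrix_one_equiv]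
  map_star' a := by
    simp only [star_eq_conjTranspose, conjTranspose_submatrix, conjTranspose_kronecker,
      conjTranspose_one]

lemma emb_def (e : κ ↪ ι) (m : Op (sub e d)) : emb e m =
    (m ⊗ₖ (1 : Matrix (Rest (rg e) d) (Rest (rg e) d) ℂ)).submatrix (eqv e d) (eqv e d) := rfl

lemma emb_apply (e : κ ↪ ι) (m : Op (sub e d)) (σ τ : Cfg d) :
    emb e m σ τ = if Agree (rg e) σ τ then m (res e σ) (res e τ) else 0 := by
  simp only [emb_def, submatrix_apply, eqv_apply, kroneckerMap_apply, one_apply, off_eq_iff,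
    mul_ite, mul_one, mul_zero]

lemma emb_conjTranspose (e : κ ↪ ι) (m : Op (sub e d)) : emb e mᴴ = (emb e m)ᴴ := map_star _ _

lemma emb_isHermitian (e : κ ↪ ι) {m : Op (sub e d)} (h : m.IsHermitian) :
    (emb e m).IsHermitian := by
  unfold Matrix.IsHermitian; rw [← emb_conjTranspose, h.eq]

lemma emb_posSemidef (e : κ ↪ ι) {m : Op (sub e d)} (h : m.PosSemidef) :
    (emb e m).PosSemidef := (h.kronecker PosSemidef.one).submatrix _


lemma emb_mono (e : κ ↪ ι) {a b : Op (sub e d)} (h : a ≤ b) : emb e a ≤ emb e b := by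
  rw [Matrix.le_iff, ← map_sub]; exact emb_posSemidef e h

lemma norm_emb_le (e : κ ↪ ι) (m : Op (sub e d)) : ‖emb e m‖ ≤ ‖m‖ :=
  NonUnitalStarAlgHom.norm_apply_le (emb e) m

lemma emb_fc (e : κ ↪ ι) (f : ℝ → ℂ) {m : Op (sub e d)} (h : m.IsHermitian) :
    emb e (fc f m) = fc f (emb e m) :=
  map_fc (emb e).toAlgHom f h (emb_isHermitian e h)

lemma trace_submatrix_equiv {n m : Type} [Fintype n] [Fintype m] (f : m ≃ n)
    (M : Matrix n n ℂ) : trace (M.submatrix f f) = trace M :=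
  Equiv.sum_comp f fun i => M i i

lemma trace_emb (e : κ ↪ ι) (m : Op (sub e d)) :
    trace (emb e m) = (Fintype.card (Rest (rg e) d) : ℂ) * trace m := by
  rw [emb_def, trace_submatrix_equiv, trace_kronecker, trace_one, mul_comm]

lemma emb_emb (e' : μ ↪ κ) (e : κ ↪ ι) (m : Op (sub e' (sub e d))) :
    emb e (emb e' m) = emb (e'.trans e) m := by
  ext σ τ
  refine (emb_apply _ _ _ _).trans (Eq.trans ?_ (emb_apply (e'.trans e) m σ τ).symm)
  rw [emb_apply]
  have : Agree (rg (e'.trans e)) σ τ ↔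
      Agree (rg e) σ τ ∧ Agree (rg e') (res e σ) (res e τ) := by
    constructor
    · intro h
      refine ⟨h.mono (by rw [rg_trans]; intro x hx; simp at hx ⊢; tauto), fun k hk => h _ ?_⟩
      rw [rg_trans]; simpa using hk
    · rintro ⟨h1, h2⟩ x hx
      by_cases hx' : x ∈ rg e
      · obtain ⟨k, rfl⟩ := mem_rg.1 hx'
        exact h2 k (by rw [rg_trans] at hx; simpa using hx)
      · exact h1 x hx'
  by_cases h1 : Agree (rg e) σ τ <;> by_cases h2 : Agree (rg e') (res e σ) (res e τ) <;>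
    simp [this, h1, h2]
  rfl

/-- partial trace onto the subsystem -/
noncomputable def red (e : κ ↪ ι) (ω : Op d) : Op (sub e d) :=
  ptr (ω.submatrix (eqv e d).symm (eqv e d).symm)

lemma red_apply (e : κ ↪ ι) (ω : Op d) (a b : Cfg (sub e d)) :
    red e ω a b = ∑ c, ω ((eqv e d).symm (a, c)) ((eqv e d).symm (b, c)) := rfl

lemma trace_emb_mul (e : κ ↪ ι) (m : Op (sub e d)) (ω : Op d) :
    trace (emb e m * ω) = trace (m * red e ω) := by
  rw [red, ← trace_kron_one_mul, emb_def, ← trace_submatrix_equiv (eqv e d).symm,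
    ← submatrix_mul_equiv _ _ _ (eqv e d).symm]
  simp

lemma trace_mul_emb (e : κ ↪ ι) (m : Op (sub e d)) (ω : Op d) :
    trace (ω * emb e m) = trace (red e ω * m) := by
  rw [trace_mul_comm, trace_emb_mul, trace_mul_comm]

lemma eq_red {e : κ ↪ ι} {ω : Op d} {r : Op (sub e d)}
    (h : ∀ m, trace (m * r) = trace (emb e m * ω)) : r = red e ω :=
  Matrix.ext_iff_trace_mul_left.2 fun m => by rw [h, trace_emb_mul]

lemma trace_red (e : κ ↪ ι) (ω : Op d) : trace (red e ω) = trace ω := by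
  have := trace_emb_mul e 1 ω
  simpa using this.symm

lemma red_add (e : κ ↪ ι) (ω ω' : Op d) : red e (ω + ω') = red e ω + red e ω' := by
  ext a b; simp [red_apply, Finset.sum_add_distrib]

lemma red_sub (e : κ ↪ ι) (ω ω' : Op d) : red e (ω - ω') = red e ω - red e ω' := by
  ext a b; simp [red_apply, Finset.sum_sub_distrib]

lemma red_smul (e : κ ↪ ι) (c : ℂ) (ω : Op d) : red e (c • ω) = c • red e ω := by
  ext a b; simp [red_apply, Finset.mul_sum]

@[simp] lemma red_zero (e : κ ↪ ι) : red e (0 : Op d) = 0 := by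
  ext a b; simp [red_apply]

lemma red_sum {α : Type*} (e : κ ↪ ι) (s : Finset α) (ω : α → Op d) :
    red e (∑ k ∈ s, ω k) = ∑ k ∈ s, red e (ω k) := by
  ext a b; simp only [red_apply, Matrix.sum_apply]; rw [Finset.sum_comm]

lemma red_conjTranspose (e : κ ↪ ι) (ω : Op d) : red e ωᴴ = (red e ω)ᴴ := by
  ext a b; simp [red_apply]

lemma red_isHermitian (e : κ ↪ ι) {ω : Op d} (h : ω.IsHermitian) : (red e ω).IsHermitian := by
  unfold Matrix.IsHermitian; rw [← red_conjTranspose, h.eq]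

lemma red_posSemidef (e : κ ↪ ι) {ω : Op d} (h : ω.PosSemidef) : (red e ω).PosSemidef := by
  refine posSemidef_of_re_inner (red_isHermitian e h.1) fun v => ?_
  rw [← trace_kb_mul, ← trace_emb_mul]
  exact re_trace_mul_nonneg (emb_posSemidef e (pj_posSemidef v)) h

lemma red_mono (e : κ ↪ ι) {ω ω' : Op d} (h : ω ≤ ω') : red e ω ≤ red e ω' := by
  rw [Matrix.le_iff, ← red_sub]; exact red_posSemidef e h

lemma red_emb_mul (e : κ ↪ ι) (a : Op (sub e d)) (ω : Op d) :
    red e (emb e a * ω) = a * red e ω :=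
  (eq_red fun m => by rw [← Matrix.mul_assoc, ← trace_emb_mul, map_mul, Matrix.mul_assoc]).symm

lemma red_mul_emb (e : κ ↪ ι) (a : Op (sub e d)) (ω : Op d) :
    red e (ω * emb e a) = red e ω * a :=
  (eq_red fun m => by
    rw [← Matrix.mul_assoc, trace_mul_cycle, ← trace_emb_mul, map_mul, ← Matrix.mul_assoc,
      trace_mul_cycle (emb e m)]).symm

lemma red_red (e' : μ ↪ κ) (e : κ ↪ ι) (ω : Op d) :
    red (d := sub e d) e' (red e ω) = red (e'.trans e) ω :=
  eq_red (e := e'.trans e) fun m => by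
    have h1 := trace_emb_mul (d := sub e d) e' m (red e ω)
    have h2 := trace_emb_mul e (emb (d := sub e d) e' m) ω
    have h3 := emb_emb (d := d) e' e m
    exact h1.symm.trans (h2.symm.trans (congrArg (fun z => trace (z * ω)) h3))

/-! ### supports -/

/-- `M` is supported on `X` -/
structure Supp (X : Finset ι) (M : Op d) : Prop where
  zero : ∀ σ τ, ¬ Agree X σ τ → M σ τ = 0
  dep : ∀ σ τ σ' τ', Agree X σ τ → Agree X σ' τ' → (∀ x ∈ X, σ x = σ' x) →
    (∀ x ∈ X, τ x = τ' x) → M σ τ = M σ' τ'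

lemma supp_emb (e : κ ↪ ι) (m : Op (sub e d)) : Supp (rg e) (emb e m) where
  zero σ τ h := by rw [emb_apply, if_neg h]
  dep σ τ σ' τ' h h' h1 h2 := by
    rw [emb_apply, emb_apply, if_pos h, if_pos h', res_eq_iff.2 h1, res_eq_iff.2 h2]

lemma Supp.exists_emb {e : κ ↪ ι} {M : Op d} (h : Supp (rg e) M) : ∃ m, emb e m = M := by
  classical
  refine ⟨Matrix.of fun a b => if h : ∃ p : Cfg d × Cfg d, Agree (rg e) p.1 p.2 ∧ res e p.1 = a ∧
    res e p.2 = b then M h.choose.1 h.choose.2 else 0, ?_⟩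
  ext σ τ
  rw [emb_apply]
  split_ifs with h1
  · have hex : ∃ p : Cfg d × Cfg d, Agree (rg e) p.1 p.2 ∧ res e p.1 = res e σ ∧
      res e p.2 = res e τ := ⟨(σ, τ), h1, rfl, rfl⟩
    rw [of_apply, dif_pos hex]
    obtain ⟨h2, h3, h4⟩ := hex.choose_spec
    exact h.dep _ _ _ _ h2 h1 (res_eq_iff.1 h3) (res_eq_iff.1 h4)
  · exact (h.zero _ _ h1).symm

lemma Supp.mono {X Y : Finset ι} {M : Op d} (h : Supp X M) (hXY : X ⊆ Y) : Supp Y M where
  zero σ τ h1 := h.zero σ τ fun h2 => h1 (h2.mono hXY)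
  dep σ τ σ' τ' h1 h2 h3 h4 := by
    by_cases h5 : Agree X σ τ
    · refine h.dep _ _ _ _ h5 (fun x hx => ?_) (fun x hx => h3 x (hXY hx))
        fun x hx => h4 x (hXY hx)
      by_cases hy : x ∈ Y
      · rw [← h3 x hy, ← h4 x hy, h5 x hx]
      · exact h2 x hy
    · rw [h.zero _ _ h5, h.zero]
      intro h6
      refine h5 fun x hx => ?_
      by_cases hy : x ∈ Y
      · rw [h3 x hy, h4 x hy, h6 x hx]
      · exact h1 x hy

lemma supp_univ (M : Op d) : Supp univ M where
  zero σ τ h := absurd (fun x hx => absurd (mem_univ x) hx) h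
  dep σ τ σ' τ' _ _ h1 h2 := by
    rw [funext fun x => h1 x (mem_univ x), funext fun x => h2 x (mem_univ x)]

/-- the inclusion of a set of sites -/
def sb (X : Finset ι) : X ↪ ι := Function.Embedding.subtype (· ∈ X)

@[simp] lemma sb_apply (X : Finset ι) (x : X) : sb X x = x.1 := rfl

@[simp] lemma rg_sb (X : Finset ι) : rg (sb X) = X := by ext x; simp

/-- `m ⊗ 1` for `m` on `X` -/
noncomputable abbrev lift (X : Finset ι) : Op (sub (sb X) d) →⋆ₐ[ℂ] Op d := emb (sb X)

lemma supp_lift (X : Finset ι) (m : Op (sub (sb X) d)) : Supp X (lift X m) := by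
  have := supp_emb (sb X) m
  rwa [rg_sb] at this

lemma Supp.exists_lift {X : Finset ι} {M : Op d} (h : Supp X M) : ∃ m, lift X m = M :=
  Supp.exists_emb (by rwa [rg_sb])

lemma supp_iff {X : Finset ι} {M : Op d} : Supp X M ↔ ∃ m, lift X m = M :=
  ⟨Supp.exists_lift, by rintro ⟨m, rfl⟩; exact supp_lift X m⟩

lemma Supp.emb {Y : Finset κ} (e : κ ↪ ι) {m : Op (sub e d)} (h : Supp Y m) :
    Supp (Y.map e) (emb e m) := by
  obtain ⟨m', rfl⟩ := h.exists_lift
  rw [emb_emb (sb Y) e m']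
  have := supp_emb (d := d) ((sb Y).trans e) m'
  rwa [rg_trans, rg_sb] at this

/-- the algebra of operators supported on `X` -/
noncomputable def alg (X : Finset ι) : StarSubalgebra ℂ (Op d) := (lift X).range

lemma mem_alg {X : Finset ι} {M : Op d} : M ∈ alg (d := d) X ↔ Supp X M := by
  rw [supp_iff]; rfl

namespace Supp

variable {X Y : Finset ι} {M N : Op d}

lemma add (h : Supp X M) (h' : Supp X N) : Supp X (M + N) :=
  mem_alg.1 (add_mem (mem_alg.2 h) (mem_alg.2 h'))

lemma sub (h : Supp X M) (h' : Supp X N) : Supp X (M - N) :=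
  mem_alg.1 (sub_mem (mem_alg.2 h) (mem_alg.2 h'))

lemma neg (h : Supp X M) : Supp X (-M) := mem_alg.1 (neg_mem (mem_alg.2 h))

lemma mul (h : Supp X M) (h' : Supp X N) : Supp X (M * N) :=
  mem_alg.1 (mul_mem (mem_alg.2 h) (mem_alg.2 h'))

lemma smul (c : ℂ) (h : Supp X M) : Supp X (c • M) :=
  mem_alg.1 (SMulMemClass.smul_mem c (mem_alg.2 h))

lemma conjTranspose (h : Supp X M) : Supp X Mᴴ := mem_alg.1 (star_mem (mem_alg.2 h))

lemma one (X : Finset ι) : Supp X (1 : Op d) := mem_alg.1 (one_mem _)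

lemma zero' (X : Finset ι) : Supp X (0 : Op d) := mem_alg.1 (zero_mem _)

lemma sum {α : Type*} {s : Finset α} {F : α → Op d} (h : ∀ a ∈ s, Supp X (F a)) :
    Supp X (∑ a ∈ s, F a) := mem_alg.1 (sum_mem fun a ha => mem_alg.2 (h a ha))

lemma list_prod {l : List (Op d)} (h : ∀ a ∈ l, Supp X a) : Supp X l.prod :=
  mem_alg.1 (list_prod_mem fun a ha => mem_alg.2 (h a ha))

lemma pow (h : Supp X M) (k : ℕ) : Supp X (M ^ k) := mem_alg.1 (pow_mem (mem_alg.2 h) k)

lemma mul_union (h : Supp X M) (h' : Supp Y N) : Supp (X ∪ Y) (M * N) :=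
  (h.mono subset_union_left).mul (h'.mono subset_union_right)

lemma fc (h : Supp X M) (f : ℝ → ℂ) (hM : M.IsHermitian) : Supp X (fc f M) :=
  mem_alg.1 (fc_mem (alg X).toSubalgebra f hM (mem_alg.2 h))

lemma mul_apply_compl (h : Supp X M) (h' : Supp Xᶜ N) (σ τ : Cfg d) :
    (M * N) σ τ = M σ (X.piecewise τ σ) * N (X.piecewise τ σ) τ := by
  rw [mul_apply]
  refine Finset.sum_eq_single _ (fun υ _ hυ => ?_) (by simp)
  by_contra hne
  obtain ⟨h1, h2⟩ := mul_ne_zero_iff.1 hne
  refine hυ (funext fun x => ?_)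
  by_cases hx : x ∈ X
  · rw [piecewise_eq_of_mem _ _ _ hx]
    by_contra h3
    exact h2 (h'.zero _ _ fun h4 => h3 (h4 x (by simpa using hx)))
  · rw [piecewise_eq_of_notMem _ _ _ hx]
    by_contra h3
    exact h1 (h.zero _ _ fun h4 => h3 (h4 x hx).symm)

/-- operators with disjoint supports commute -/
theorem commute (h : Supp X M) (h' : Supp Y N) (hd : Disjoint X Y) : Commute M N := by
  have h1 : Supp Xᶜ N := h'.mono (le_compl_iff_disjoint_left.2 hd)
  have h2 : Supp Xᶜᶜ M := by rwa [compl_compl]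
  ext σ τ
  rw [h.mul_apply_compl h1, h1.mul_apply_compl h2, mul_comm, piecewise_compl]
  congr 1
  · refine h1.dep _ _ _ _ ?_ ?_ ?_ ?_ <;> intro x hx <;> simp only [mem_compl, not_not] at hx <;>
      simp [piecewise, hx]
  · refine h.dep _ _ _ _ ?_ ?_ ?_ ?_ <;> intro x hx <;> simp [piecewise, hx]

end Supp

/-- two embeddings which agree on the support -/
lemma emb_congr {q : Type} [Fintype q] [DecidableEq q] {Y : Finset κ} {e e' : κ ↪ ι}
    (he : ∀ k ∈ Y, e k = e' k) {m : Op (fun _ : κ => q)} (h : Supp Y m) :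
    emb (d := fun _ => q) e m = emb (d := fun _ => q) e' m := by
  obtain ⟨m', rfl⟩ := h.exists_lift
  have h1 := emb_emb (d := fun _ => q) (sb Y) e m'
  have h2 := emb_emb (d := fun _ => q) (sb Y) e' m'
  have h3 : (sb Y).trans e = (sb Y).trans e' := by ext k; exact he k k.2
  refine h1.trans (Eq.trans ?_ h2.symm)
  ext σ τ
  simp only [emb_apply, h3]
  have h4 : ∀ σ : Cfg (fun _ : ι => q), res ((sb Y).trans e) σ = res ((sb Y).trans e') σ := by
    intro σ; rw [h3]
  rw [h4, h4]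

/-! ### dimensions -/

/-- dimension of the space of `X` -/
def dim (d : ι → Type) [∀ x, Fintype (d x)] (X : Finset ι) : ℕ := ∏ x ∈ X, Fintype.card (d x)

lemma card_sub (e : κ ↪ ι) : Fintype.card (Cfg (sub e d)) = dim d (rg e) := by
  rw [Fintype.card_pi, dim, rg, Finset.prod_map]

lemma card_sub_sb (X : Finset ι) : Fintype.card (Cfg (sub (sb X) d)) = dim d X := by
  rw [card_sub, rg_sb]

lemma card_rest (X : Finset ι) : Fintype.card (Rest X d) = dim d Xᶜ := by
  rw [Fintype.card_pi, dim]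
  exact (Finset.prod_subtype Xᶜ (fun x => mem_compl) fun x => Fintype.card (d x)).symm

lemma card_cfg : Fintype.card (Cfg d) = dim d univ := by rw [Fintype.card_pi, dim]

lemma dim_union {X Y : Finset ι} (h : Disjoint X Y) : dim d (X ∪ Y) = dim d X * dim d Y :=
  Finset.prod_union h

lemma dim_mul_compl (X : Finset ι) : dim d X * dim d Xᶜ = dim d univ :=
  Finset.prod_mul_prod_compl _ _

lemma dim_union_inter (X Y : Finset ι) : dim d (X ∪ Y) * dim d (X ∩ Y) = dim d X * dim d Y :=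
  Finset.prod_union_inter

@[simp] lemma dim_empty : dim d ∅ = 1 := Finset.prod_empty

lemma dim_pos [∀ x, Nonempty (d x)] (X : Finset ι) : 0 < dim d X :=
  Finset.prod_pos fun _ _ => Fintype.card_pos

lemma dim_const (q : Type) [Fintype q] (X : Finset ι) :
    dim (fun _ : ι => q) X = Fintype.card q ^ X.card := by simp [dim]

lemma trace_lift (X : Finset ι) (m : Op (sub (sb X) d)) :
    trace (lift X m) = (dim d Xᶜ : ℂ) * trace m := by
  rw [trace_emb, card_rest, rg_sb]

lemma emb_injective [∀ x, Nonempty (d x)] (e : κ ↪ ι) :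
    Function.Injective (emb (d := d) e) := by
  intro a b h
  ext α β
  obtain ⟨c⟩ : Nonempty (Rest (rg e) d) := inferInstance
  have := congrFun (congrFun h ((eqv e d).symm (α, c))) ((eqv e d).symm (β, c))
  simpa [emb_def] using this

lemma norm_emb [∀ x, Nonempty (d x)] (e : κ ↪ ι) (m : Op (sub e d)) : ‖emb e m‖ = ‖m‖ :=
  NonUnitalStarAlgHom.norm_map (emb e) (emb_injective e) m

lemma isHermitian_of_emb [∀ x, Nonempty (d x)] {e : κ ↪ ι} {m : Op (sub e d)}
    (h : (emb e m).IsHermitian) : m.IsHermitian :=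
  emb_injective e (by rw [emb_conjTranspose, h.eq])

lemma red_emb (e : κ ↪ ι) (m : Op (sub e d)) : red e (emb e m) = (dim d (rg e)ᶜ : ℂ) • m :=
  (eq_red fun a => by
    rw [← map_mul, trace_emb, card_rest, Matrix.mul_smul, trace_smul, smul_eq_mul]).symm


end Crest.Agent.N336.Q
end

-- ▼ part N336/Q/Cond

/-!
# Row 336, core: marginal operators, conditional expectations, matrix units (helper87)

* `mg X ω = ρ_X ⊗ 1`, `E X M` the trace preserving conditional expectation onto `Supp X`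
* `E_E : E X (E Y M) = E (X ∩ Y) M`, `exists_twirl`, `norm_sub_E_le`
* `Supp.decomp` : an operator on `Z` is a sum of `dim Z ^ 2` products across a cut
* bridge to the prelude: `localOp_eq`, `isSupportedOn_iff`, `reducedDensity_eq`
-/

set_option autoImplicit false
set_option linter.unusedSectionVars false

open Matrix Finset
open scoped Kronecker ComplexOrder MatrixOrder Matrix.Norms.L2Operator InnerProductSpace

namespace Crest.Agent.N336.Q

variable {ι κ : Type} [Fintype ι] [DecidableEq ι] [Fintype κ] [DecidableEq κ]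
  {d : ι → Type} [∀ x, Fintype (d x)] [∀ x, DecidableEq (d x)]

/-- the marginal operator `ρ_X ⊗ 1` -/
noncomputable def mg (X : Finset ι) (ω : Op d) : Op d := lift X (red (sb X) ω)

lemma supp_mg (X : Finset ι) (ω : Op d) : Supp X (mg X ω) := supp_lift _ _

lemma mg_posSemidef (X : Finset ι) {ω : Op d} (h : ω.PosSemidef) : (mg X ω).PosSemidef :=
  emb_posSemidef _ (red_posSemidef _ h)

lemma mg_isHermitian (X : Finset ι) {ω : Op d} (h : ω.IsHermitian) : (mg X ω).IsHermitian :=
  emb_isHermitian _ (red_isHermitian _ h)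

lemma mg_add (X : Finset ι) (ω ω' : Op d) : mg X (ω + ω') = mg X ω + mg X ω' := by
  simp [mg, red_add]


lemma mg_smul (X : Finset ι) (c : ℂ) (ω : Op d) : mg X (c • ω) = c • mg X ω := by
  simp [mg, red_smul]

lemma mg_sum {α : Type*} (X : Finset ι) (s : Finset α) (ω : α → Op d) :
    mg X (∑ k ∈ s, ω k) = ∑ k ∈ s, mg X (ω k) := by
  simp [mg, red_sum]

lemma mg_conjTranspose (X : Finset ι) (ω : Op d) : mg X ωᴴ = (mg X ω)ᴴ := by
  rw [mg, mg, red_conjTranspose, emb_conjTranspose]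

lemma mg_mono (X : Finset ι) {ω ω' : Op d} (h : ω ≤ ω') : mg X ω ≤ mg X ω' :=
  emb_mono _ (red_mono _ h)

lemma trace_mg (X : Finset ι) (ω : Op d) : trace (mg X ω) = (dim d Xᶜ : ℂ) * trace ω := by
  rw [mg, trace_lift, trace_red]

/-- defining property of the marginal operator -/
lemma Supp.trace_mul_mg {X : Finset ι} {M : Op d} (h : Supp X M) (ω : Op d) :
    trace (M * mg X ω) = (dim d Xᶜ : ℂ) * trace (M * ω) := by
  obtain ⟨m, rfl⟩ := h.exists_lift
  rw [mg, ← map_mul, trace_lift, trace_emb_mul]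

lemma Supp.mg_mul {X : Finset ι} {M : Op d} (h : Supp X M) (ω : Op d) :
    mg X (M * ω) = M * mg X ω := by
  obtain ⟨m, rfl⟩ := h.exists_lift
  rw [mg, mg, red_emb_mul, map_mul]

lemma Supp.mg_mul' {X : Finset ι} {M : Op d} (h : Supp X M) (ω : Op d) :
    mg X (ω * M) = mg X ω * M := by
  obtain ⟨m, rfl⟩ := h.exists_lift
  rw [mg, mg, red_mul_emb, map_mul]

lemma Supp.mg_eq {X : Finset ι} {M : Op d} (h : Supp X M) : mg X M = (dim d Xᶜ : ℂ) • M := by
  obtain ⟨m, rfl⟩ := h.exists_lift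
  rw [mg, red_emb, rg_sb, map_smul]

/-- cyclicity of the partial trace for operators on the traced out part -/
lemma red_mul_comm {e : κ ↪ ι} {N : Op d} (h : Supp (rg e)ᶜ N) (ω : Op d) :
    red e (N * ω) = red e (ω * N) :=
  eq_red fun m => by
    rw [← trace_emb_mul, ← Matrix.mul_assoc, ((supp_emb e m).commute h disjoint_compl_right).eq,
      Matrix.mul_assoc, trace_mul_comm, Matrix.mul_assoc]

lemma red_conj_unitary {e : κ ↪ ι} {U : Op d} (h : Supp (rg e)ᶜ U) (hU : Uᴴ * U = 1)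
    (ω : Op d) : red e (U * ω * Uᴴ) = red e ω := by
  rw [Matrix.mul_assoc, red_mul_comm h, Matrix.mul_assoc, hU, Matrix.mul_one]

/-- two operators supported on `X` with the same pairings agree -/
lemma Supp.ext_trace [∀ x, Nonempty (d x)] {X : Finset ι} {M N : Op d} (hM : Supp X M)
    (hN : Supp X N) (h : ∀ A, Supp X A → trace (A * M) = trace (A * N)) : M = N := by
  obtain ⟨m, rfl⟩ := hM.exists_lift
  obtain ⟨k, rfl⟩ := hN.exists_lift
  congr 1
  refine Matrix.ext_iff_trace_mul_left.2 fun a => ?_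
  have h1 := h _ (supp_lift X a)
  rw [← map_mul, ← map_mul, trace_lift, trace_lift] at h1
  have h2 : (dim d Xᶜ : ℂ) ≠ 0 := by exact_mod_cast (dim_pos _).ne'
  exact mul_left_cancel₀ h2 h1

lemma emb_red_apply (e : κ ↪ ι) (ω : Op d) (σ τ : Cfg d) :
    (dim d (rg e) : ℂ) * emb e (red e ω) σ τ = if Agree (rg e) σ τ then
      ∑ γ : Cfg d, ω ((rg e).piecewise σ γ) ((rg e).piecewise τ γ) else 0 := by
  rw [emb_apply]
  split_ifs with h
  · rw [← Equiv.sum_comp (eqv e d).symm, Fintype.sum_prod_type, red_apply]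
    have key : ∀ (σ : Cfg d) a c, (rg e).piecewise σ ((eqv e d).symm (a, c)) =
        (eqv e d).symm (res e σ, c) := by
      intro σ a c
      rw [Equiv.eq_symm_apply, eqv_apply]
      rw [Prod.mk.injEq, res_eq_iff]
      refine ⟨fun x hx => by simp [piecewise, hx, -mem_rg], ?_⟩
      refine Eq.trans (off_eq_iff.2 fun x hx => ?_) (off_symm e (a, c))
      simp [piecewise, hx, -mem_rg]
    simp only [key, Finset.sum_const, card_univ, card_sub, nsmul_eq_mul]
  · simp

lemma mg_apply (X : Finset ι) (ω : Op d) (σ τ : Cfg d) :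
    (dim d X : ℂ) * mg X ω σ τ = if Agree X σ τ then
      ∑ γ : Cfg d, ω (X.piecewise σ γ) (X.piecewise τ γ) else 0 := by
  have := emb_red_apply (sb X) ω σ τ
  rwa [rg_sb] at this

lemma emb_red_eq_mg [∀ x, Nonempty (d x)] (e : κ ↪ ι) (ω : Op d) :
    emb e (red e ω) = mg (rg e) ω := by
  ext σ τ
  have h2 : (dim d (rg e) : ℂ) ≠ 0 := by exact_mod_cast (dim_pos _).ne'
  exact mul_left_cancel₀ h2 ((emb_red_apply e ω σ τ).trans (mg_apply _ ω σ τ).symm)

section nonempty

variable [∀ x, Nonempty (d x)]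

lemma dim_ne_zero (X : Finset ι) : (dim d X : ℂ) ≠ 0 := by exact_mod_cast (dim_pos _).ne'

lemma dim_pos_real (X : Finset ι) : (0 : ℝ) < dim d X := by exact_mod_cast dim_pos _

/-- the conditional expectation onto the operators supported on `X` -/
noncomputable def E (X : Finset ι) (M : Op d) : Op d := (dim d Xᶜ : ℂ)⁻¹ • mg X M

lemma mg_eq_E (X : Finset ι) (M : Op d) : mg X M = (dim d Xᶜ : ℂ) • E X M := by
  rw [E, smul_smul, mul_inv_cancel₀ (dim_ne_zero _), one_smul]

lemma E_apply (X : Finset ι) (M : Op d) (σ τ : Cfg d) :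
    E X M σ τ = if Agree X σ τ then (dim d univ : ℂ)⁻¹ *
      ∑ γ : Cfg d, M (X.piecewise σ γ) (X.piecewise τ γ) else 0 := by
  have h := mg_apply X M σ τ
  have h1 := dim_ne_zero (d := d) X
  have h2 := dim_ne_zero (d := d) Xᶜ
  rw [E, Matrix.smul_apply, smul_eq_mul, ← dim_mul_compl X]
  split_ifs at h ⊢
  · rw [← h]; push_cast; field_simp
  · rw [(mul_eq_zero.1 h).resolve_left h1, mul_zero]

lemma supp_E (X : Finset ι) (M : Op d) : Supp X (E X M) := (supp_mg X M).smul _

lemma Supp.E_eq {X : Finset ι} {M : Op d} (h : Supp X M) : E X M = M := by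
  rw [E, h.mg_eq, smul_smul, inv_mul_cancel₀ (dim_ne_zero _), one_smul]



lemma E_smul (X : Finset ι) (c : ℂ) (M : Op d) : E X (c • M) = c • E X M := by
  rw [E, E, mg_smul, smul_comm]

lemma E_sum {α : Type*} (X : Finset ι) (s : Finset α) (M : α → Op d) :
    E X (∑ k ∈ s, M k) = ∑ k ∈ s, E X (M k) := by
  simp [E, mg_sum, Finset.smul_sum]

lemma E_conjTranspose (X : Finset ι) (M : Op d) : E X Mᴴ = (E X M)ᴴ := by
  simp [E, mg_conjTranspose]

lemma E_isHermitian (X : Finset ι) {M : Op d} (h : M.IsHermitian) : (E X M).IsHermitian := by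
  unfold Matrix.IsHermitian; rw [← E_conjTranspose, h.eq]

lemma E_posSemidef (X : Finset ι) {M : Op d} (h : M.PosSemidef) : (E X M).PosSemidef :=
  (mg_posSemidef X h).smul (by positivity)


lemma Supp.trace_mul_E {X : Finset ι} {M : Op d} (h : Supp X M) (ω : Op d) :
    trace (M * E X ω) = trace (M * ω) := by
  rw [E, Matrix.mul_smul, trace_smul, h.trace_mul_mg, smul_eq_mul,
    inv_mul_cancel_left₀ (dim_ne_zero _)]

lemma trace_E (X : Finset ι) (M : Op d) : trace (E X M) = trace M := by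
  simpa using (Supp.one X).trace_mul_E M

lemma trace_E_mul (X : Finset ι) (M N : Op d) : trace (E X M * N) = trace (M * E X N) := by
  rw [← (supp_E X M).trace_mul_E, trace_mul_comm, (supp_E X N).trace_mul_E, trace_mul_comm]

lemma Supp.E_mul {X : Finset ι} {M : Op d} (h : Supp X M) (N : Op d) :
    E X (M * N) = M * E X N := by rw [E, E, h.mg_mul, Matrix.mul_smul]

lemma Supp.E_mul' {X : Finset ι} {M : Op d} (h : Supp X M) (N : Op d) :
    E X (N * M) = E X N * M := by rw [E, E, h.mg_mul', Matrix.smul_mul]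

theorem E_E (X Y : Finset ι) (M : Op d) : E X (E Y M) = E (X ∩ Y) M := by
  ext σ τ
  simp only [E_apply]
  have hA : ∀ γ : Cfg d, Agree X σ τ →
      (Agree Y (X.piecewise σ γ) (X.piecewise τ γ) ↔ Agree (X ∩ Y) σ τ) := by
    intro γ h
    constructor
    · intro h1 x hx
      by_cases hX : x ∈ X
      · simpa [piecewise, hX] using h1 x fun hY => hx (mem_inter.2 ⟨hX, hY⟩)
      · exact h x hX
    · intro h1 x hx
      by_cases hX : x ∈ X
      · simpa [piecewise, hX] using h1 x fun hY => hx (mem_inter.1 hY).2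
      · simp [piecewise, hX]
  by_cases h : Agree X σ τ
  · simp only [h, if_true, hA _ h]
    split_ifs with h1
    · congr 1
      rw [← Finset.mul_sum, ← Fintype.sum_prod_type']
      let f : Cfg d × Cfg d ≃ Cfg d × Cfg d := Function.Involutive.toPerm
        (fun p => (Y.piecewise p.1 p.2, Y.piecewise p.2 p.1)) fun p => by
          refine Prod.ext (funext fun x => ?_) (funext fun x => ?_) <;>
            by_cases hx : x ∈ Y <;> simp [piecewise, hx]
      rw [← Equiv.sum_comp f]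
      have key : ∀ (σ : Cfg d) (p : Cfg d × Cfg d),
          Y.piecewise (X.piecewise σ (f p).1) (f p).2 = (X ∩ Y).piecewise σ p.1 := by
        intro σ p
        funext x
        change Y.piecewise (X.piecewise σ (Y.piecewise p.1 p.2)) (Y.piecewise p.2 p.1) x = _
        by_cases hx : x ∈ X <;> by_cases hy : x ∈ Y <;> simp [piecewise, hx, hy]
      simp only [key, Fintype.sum_prod_type, Finset.sum_const, card_univ, card_cfg, nsmul_eq_mul,
        ← Finset.mul_sum]
      rw [inv_mul_cancel_left₀ (dim_ne_zero _)]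
    · simp
  · rw [if_neg h, if_neg fun h1 => h (h1.mono inter_subset_left)]

lemma Supp.E_inter {X Y : Finset ι} {M : Op d} (h : Supp Y M) : Supp (X ∩ Y) (E X M) := by
  rw [← h.E_eq, E_E]; exact supp_E _ _


lemma mg_mg (X Y : Finset ι) (ω : Op d) :
    mg X (mg Y ω) = (dim d (X ∪ Y)ᶜ : ℂ) • mg (X ∩ Y) ω := by
  rw [mg_eq_E, mg_eq_E, mg_eq_E, E_smul, E_E, smul_smul, smul_smul, compl_union, compl_inter,
    ← Nat.cast_mul, ← Nat.cast_mul, ← dim_union_inter, mul_comm]


/-- **twirl** -/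
theorem exists_twirl (X : Finset ι) : ∃ (G : Type) (_ : Fintype G) (_ : Nonempty G)
    (U : G → Op d), (∀ g, Supp Xᶜ (U g) ∧ (U g)ᴴ * U g = 1 ∧ U g * (U g)ᴴ = 1) ∧
      ∀ M, E X M = (Fintype.card G : ℂ)⁻¹ • ∑ g, U g * M * (U g)ᴴ := by
  let e := sb X
  let R := Rest (rg e) d
  refine ⟨(R → Bool) × Equiv.Perm R, inferInstance, inferInstance,
    fun g => ((1 : Op (sub e d)) ⊗ₖ sp g).submatrix (eqv e d) (eqv e d), fun g => ?_, fun M => ?_⟩
  · have h1 : ((1 : Op (sub e d)) ⊗ₖ sp g).submatrix (eqv e d) (eqv e d) *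
        (((1 : Op (sub e d)) ⊗ₖ sp g).submatrix (eqv e d) (eqv e d))ᴴ = 1 := by
      rw [conjTranspose_submatrix, submatrix_mul_equiv, conjTranspose_kronecker,
        ← mul_kronecker_mul, sp_mul_conjTranspose]
      simp
    refine ⟨⟨fun σ τ h => ?_, fun σ τ σ' τ' h h' h2 h3 => ?_⟩, mul_eq_one_comm.1 h1, h1⟩
    · have : res e σ ≠ res e τ := fun h2 => h fun x hx =>
        res_eq_iff.1 h2 x (by simpa [e] using hx)
      simp [this]
    · have e1 : res e σ = res e τ := res_eq_iff.2 fun x hx => h x (by simpa [e] using hx)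
      have e2 : res e σ' = res e τ' := res_eq_iff.2 fun x hx => h' x (by simpa [e] using hx)
      have e3 : off (rg e) σ = off (rg e) σ' :=
        off_eq_iff.2 fun x hx => h2 x (by simpa [e] using hx)
      have e4 : off (rg e) τ = off (rg e) τ' :=
        off_eq_iff.2 fun x hx => h3 x (by simpa [e] using hx)
      simp [e1, e2, e3, e4]
  · have h := congrArg (fun Z => Matrix.submatrix Z (eqv e d) (eqv e d))
      (twirl_eq (M.submatrix (eqv e d).symm (eqv e d).symm))
    have hc : (Fintype.card ((R → Bool) × Equiv.Perm R) : ℂ) ≠ 0 := by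
      exact_mod_cast Fintype.card_ne_zero
    have hR : (Fintype.card R : ℂ) = dim d Xᶜ := by rw [card_rest, rg_sb]
    have h1 : ∀ g : (R → Bool) × Equiv.Perm R,
        ((1 : Op (sub e d)) ⊗ₖ sp g).submatrix (eqv e d) (eqv e d) * M *
          (((1 : Op (sub e d)) ⊗ₖ sp g).submatrix (eqv e d) (eqv e d))ᴴ =
        (((1 : Op (sub e d)) ⊗ₖ sp g) * M.submatrix (eqv e d).symm (eqv e d).symm *
          ((1 : Op (sub e d)) ⊗ₖ sp g)ᴴ).submatrix (eqv e d) (eqv e d) := by
      intro g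
      rw [← submatrix_mul_equiv _ _ _ (eqv e d), ← submatrix_mul_equiv _ _ _ (eqv e d),
        conjTranspose_submatrix]
      simp
    simp only [h1]
    have h2 : mg X M = (ptr (M.submatrix (eqv e d).symm (eqv e d).symm) ⊗ₖ
      (1 : Matrix R R ℂ)).submatrix (eqv e d) (eqv e d) := rfl
    rw [E, h2, ← hR]
    ext σ τ
    have h3 := congrFun (congrFun h σ) τ
    simp only [submatrix_apply, Matrix.smul_apply, Matrix.sum_apply, smul_eq_mul] at h3 ⊢
    have hR' : (Fintype.card R : ℂ) ≠ 0 := by rw [hR]; exact dim_ne_zero _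
    field_simp
    exact (mul_comm _ _).trans h3.symm

lemma norm_of_unitary_le {n : Type} [Fintype n] [DecidableEq n] {U : Matrix n n ℂ}
    (hU : Uᴴ * U = 1) : ‖U‖ ≤ 1 := by
  rw [← norm_ap]
  refine ContinuousLinearMap.opNorm_le_bound _ zero_le_one fun v => ?_
  rw [norm_ap_unitary hU, one_mul]

lemma norm_avg_le {n G : Type} [Fintype n] [DecidableEq n] [Fintype G] [Nonempty G]
    {F : G → Matrix n n ℂ} {C : ℝ} (h : ∀ g, ‖F g‖ ≤ C) :
    ‖(Fintype.card G : ℂ)⁻¹ • ∑ g, F g‖ ≤ C := by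
  have hc : (0 : ℝ) < Fintype.card G := by exact_mod_cast Fintype.card_pos
  rw [norm_smul, norm_inv, Complex.norm_natCast, inv_mul_le_iff₀ hc]
  refine (norm_sum_le _ _).trans ?_
  simpa using Finset.sum_le_sum (s := univ) fun g _ => h g

lemma norm_E_le (X : Finset ι) (M : Op d) : ‖E X M‖ ≤ ‖M‖ := by
  obtain ⟨G, _, _, U, hU, hE⟩ := exists_twirl (d := d) X
  rw [hE]
  refine norm_avg_le fun g => ?_
  have h1 := norm_of_unitary_le (hU g).2.1
  have h2 : ‖(U g)ᴴ‖ ≤ 1 := by rwa [l2_opNorm_conjTranspose]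
  calc ‖U g * M * (U g)ᴴ‖ ≤ ‖U g‖ * ‖M‖ * ‖(U g)ᴴ‖ :=
        (norm_mul_le _ _).trans (by gcongr; exact norm_mul_le _ _)
    _ ≤ 1 * ‖M‖ * 1 := by gcongr
    _ = _ := by ring

/-- almost commuting with the complement means almost supported -/
theorem norm_sub_E_le {X : Finset ι} {M : Op d} {ε : ℝ}
    (h : ∀ B : Op d, Supp Xᶜ B → ‖B‖ ≤ 1 → ‖M * B - B * M‖ ≤ ε) : ‖M - E X M‖ ≤ ε := by
  obtain ⟨G, _, _, U, hU, hE⟩ := exists_twirl (d := d) X
  have hc : (Fintype.card G : ℂ) ≠ 0 := by exact_mod_cast Fintype.card_ne_zero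
  have : M - E X M = (Fintype.card G : ℂ)⁻¹ • ∑ g, (M * U g - U g * M) * (U g)ᴴ := by
    simp only [hE, Matrix.sub_mul, Matrix.mul_assoc M, (hU _).2.2, Matrix.mul_one,
      Finset.sum_sub_distrib, smul_sub, Finset.sum_const, card_univ]
    rw [← Nat.cast_smul_eq_nsmul ℂ, smul_smul, inv_mul_cancel₀ hc, one_smul]
  rw [this]
  refine norm_avg_le fun g => ?_
  have h1 := norm_of_unitary_le (hU g).2.1
  have h2 : ‖(U g)ᴴ‖ ≤ 1 := by rwa [l2_opNorm_conjTranspose]
  have h3 := h _ (hU g).1 h1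
  calc _ ≤ ‖M * U g - U g * M‖ * ‖(U g)ᴴ‖ := norm_mul_le _ _
    _ ≤ ε * 1 := by gcongr; exact (norm_nonneg _).trans h3
    _ = ε := mul_one _

/-- the commutant of the complement -/
theorem supp_of_commute {X : Finset ι} {M : Op d} (h : ∀ B : Op d, Supp Xᶜ B → Commute M B) :
    Supp X M := by
  have := norm_sub_E_le (X := X) (M := M) (ε := 0) fun B hB _ => by
    rw [(h B hB).eq, sub_self, norm_zero]
  rw [norm_le_zero_iff, sub_eq_zero] at this
  rw [this]; exact supp_E _ _

lemma Supp.inter {X Y : Finset ι} {M : Op d} (h : Supp X M) (h' : Supp Y M) :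
    Supp (X ∩ Y) M := by rw [← h.E_eq]; exact h'.E_inter

end nonempty

/-! ### matrix units -/

/-- matrix unit on `Z` -/
def unit (Z : Finset ι) (a b : Cfg d) : Op d :=
  Matrix.of fun σ τ => if Agree Z σ τ ∧ (∀ x ∈ Z, σ x = a x) ∧ (∀ x ∈ Z, τ x = b x) then 1 else 0

lemma supp_unit (Z : Finset ι) (a b : Cfg d) : Supp Z (unit Z a b) where
  zero σ τ h := by simp [unit, h]
  dep σ τ σ' τ' h h' h1 h2 := by
    simp only [unit, of_apply, h, h', true_and]
    refine if_congr (and_congr ?_ ?_) rfl rfl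
    · exact forall₂_congr fun x hx => by rw [h1 x hx]
    · exact forall₂_congr fun x hx => by rw [h2 x hx]

lemma unit_eq_lift (Z : Finset ι) (a b : Cfg d) :
    unit Z a b = lift Z (Matrix.single (res (sb Z) a) (res (sb Z) b) 1) := by
  ext σ τ
  simp only [unit, of_apply, emb_apply, rg_sb, single_apply, res_eq_iff]
  by_cases h : Agree Z σ τ
  · simp only [h, true_and, if_true]
    exact if_congr (and_congr (forall₂_congr fun _ _ => eq_comm)
      (forall₂_congr fun _ _ => eq_comm)) rfl rfl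
  · simp [h]

lemma norm_single_le {n : Type} [Fintype n] [DecidableEq n] (a b : n) :
    ‖(Matrix.single a b 1 : Matrix n n ℂ)‖ ≤ 1 := by
  have : (Matrix.single a b 1 : Matrix n n ℂ) =
      kb (EuclideanSpace.single a 1) (EuclideanSpace.single b 1) := by
    ext i j
    simp only [kb_apply, single_apply, EuclideanSpace.single_apply]
    by_cases h1 : a = i <;> by_cases h2 : b = j <;> simp [h1, h2, eq_comm]
  rw [this]
  simpa using norm_kb_le (EuclideanSpace.single a (1 : ℂ)) (EuclideanSpace.single b 1)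

lemma norm_unit_le (Z : Finset ι) (a b : Cfg d) : ‖unit Z a b‖ ≤ 1 := by
  rw [unit_eq_lift]; exact (norm_emb_le _ _).trans (norm_single_le _ _)

lemma unit_split (Z X : Finset ι) (a b : Cfg d) :
    unit Z a b = unit (Z ∩ X) a b * unit (Z \ X) a b := by
  ext σ τ
  rw [((supp_unit _ a b).mono inter_subset_right).mul_apply_compl
    ((supp_unit _ a b).mono (by intro x; simp))]
  simp only [unit, of_apply, ite_zero_mul_ite_zero, mul_one]
  refine if_congr ⟨fun ⟨h1, h2, h3⟩ => ⟨⟨?_, ?_, ?_⟩, ?_, ?_, ?_⟩,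
    fun ⟨⟨h1, h2, h3⟩, h4, h5, h6⟩ => ⟨?_, ?_, ?_⟩⟩ rfl rfl
  all_goals
    intro x hx
    by_cases hX : x ∈ X <;> by_cases hZ : x ∈ Z <;>
      simp_all [Agree, piecewise]
  all_goals first
    | exact (h6 x hZ hX).symm ▸ (by simpa [hX] using h5 x hZ hX)
    | skip

/-- decomposition of a local operator across a cut -/
theorem Supp.decomp [∀ x, Nonempty (d x)] {Z : Finset ι} {M : Op d} (h : Supp Z M)
    (X : Finset ι) : ∃ (K : Type) (_ : Fintype K) (c : K → ℂ) (a b : K → Op d),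
      Fintype.card K = dim d Z ^ 2 ∧ (∀ k, ‖c k‖ ≤ ‖M‖ ∧ Supp (Z ∩ X) (a k) ∧
        Supp (Z \ X) (b k) ∧ ‖a k‖ ≤ 1 ∧ ‖b k‖ ≤ 1) ∧ M = ∑ k, c k • (a k * b k) := by
  obtain ⟨m, rfl⟩ := h.exists_lift
  obtain ⟨r⟩ : Nonempty (Rest (rg (sb Z)) d) := inferInstance
  let x : Cfg (Q.sub (sb Z) d) → Cfg d := fun a => (eqv (sb Z) d).symm (a, r)
  refine ⟨Cfg (Q.sub (sb Z) d) × Cfg (Q.sub (sb Z) d), inferInstance, fun k => m k.1 k.2,
    fun k => unit (Z ∩ X) (x k.1) (x k.2), fun k => unit (Z \ X) (x k.1) (x k.2), ?_,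
    fun k => ⟨?_, supp_unit _ _ _, supp_unit _ _ _, norm_unit_le _ _ _, norm_unit_le _ _ _⟩, ?_⟩
  · rw [Fintype.card_prod, card_sub_sb, sq]
  · rw [norm_emb]; exact norm_apply_le _ _ _
  · simp only [← unit_split]
    simp only [unit_eq_lift, x, res_symm, ← map_smul, ← map_sum]
    congr 1
    conv_lhs => rw [matrix_eq_sum_single m]
    simp [Fintype.sum_prod_type]

/-! ### the prelude -/

open Crest.MathPhysics.LatticeSpin

variable {q : ℕ}

lemma localOp_eq (X : Finset ι) (m : Matrix (X → Fin q) (X → Fin q) ℂ) :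
    localOp X m = lift (d := fun _ => Fin q) X m := by
  ext σ τ
  refine Eq.trans ?_ (emb_apply (d := fun _ => Fin q) (sb X) m σ τ).symm
  rw [rg_sb]
  rfl

lemma isSupportedOn_iff {X : Finset ι} {M : Op (fun _ : ι => Fin q)} :
    IsSupportedOn M X ↔ Supp X M := by
  rw [supp_iff]
  exact exists_congr fun m => by rw [localOp_eq, eq_comm]

lemma reducedDensity_eq (Ω : Vec (Cfg fun _ : ι => Fin q)) (A : Finset ι) :
    reducedDensity Ω A = red (sb A) (pj Ω) := by
  ext a b
  refine Eq.trans ?_ (red_apply (sb A) (pj Ω) a b).symm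
  let f : ({x : ι // x ∉ A} → Fin q) ≃ Rest (rg (sb A)) (fun _ => Fin q) :=
    Equiv.arrowCongr (Equiv.subtypeEquivRight fun x => by rw [rg_sb]) (Equiv.refl _)
  rw [← Equiv.sum_comp f]
  have key : ∀ (a : A → Fin q) c, (eqv (sb A) fun _ => Fin q).symm (a, f c) = glue A a c := by
    intro a c
    rw [Equiv.symm_apply_eq, eqv_apply]
    refine Prod.ext (funext fun k => ?_) (funext fun k => ?_)
    · simp [res, glue]
    · have hk : k.1 ∉ A := by simpa using k.2
      simp only [off, glue, hk, dif_neg, not_false_eq_true]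
      rfl
  exact Finset.sum_congr rfl fun c _ => by rw [key, key]; rfl

end Crest.Agent.N336.Q
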