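import Crest.Agent.N336.Q.Spec

/-!
# Row 336, core: von Neumann entropy and relative entropy (helper87)

* `ent ρ`, `rel ρ σ`, the support condition `AC ρ σ`
* Kosaki's variational formula (`lin_le`, `exists_lin`) and its consequences:
  `rel_sum_le` (joint convexity), `rel_kraus_le` (data processing), `rel_anti`, `rel_nonneg`
* `ent_sum_le`, `sum_ent_le` (almost convexity, concavity), `ent_le_log_of_proj`
-/

set_option autoImplicit false
set_option linter.unusedSectionVars false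

open Matrix Finset Filter Topology
open scoped Kronecker ComplexOrder MatrixOrder Matrix.Norms.L2Operator InnerProductSpace

namespace Crest.Agent.N336.Q

variable {n m : Type} [Fintype n] [DecidableEq n] [Fintype m] [DecidableEq m]

/-- von Neumann entropy -/
noncomputable def ent (ρ : Matrix n n ℂ) : ℝ := ∑ i, Real.negMulLog (ev ρ i)

/-- relative entropy (meaningful under the support condition) -/
noncomputable def rel (ρ σ : Matrix n n ℂ) : ℝ := -ent ρ - (trace (ρ * fr Real.log σ)).re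

/-- support condition -/
def AC (ρ σ : Matrix n n ℂ) : Prop :=
  ∀ v : Vec n, (⟪v, ap σ v⟫_ℂ).re = 0 → (⟪v, ap ρ v⟫_ℂ).re = 0

lemma ent_eq_trace (ρ : Matrix n n ℂ) : ent ρ = (trace (fr Real.negMulLog ρ)).re := by
  rw [re_trace_fr, ent]

lemma ent_eq {ρ : Matrix n n ℂ} (h : ρ.IsHermitian) :
    ent ρ = -(trace (ρ * fr Real.log ρ)).re := by
  conv_rhs => arg 1; arg 1; arg 1; arg 1; rw [← fc_id h]
  rw [fc_mul, ent, ← Finset.sum_congr rfl fun i _ => (neg_neg _), Finset.sum_neg_distrib,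
    trace_fc]
  simp [Real.negMulLog]

lemma rel_self {ρ : Matrix n n ℂ} (h : ρ.IsHermitian) : rel ρ ρ = 0 := by
  rw [rel, ent_eq h]; ring

lemma re_trace_eq {ρ : Matrix n n ℂ} (h : ρ.IsHermitian) : (trace ρ).re = ∑ i, ev ρ i := by
  rw [trace_eq_sum_ev h, Complex.ofReal_re]

lemma re_trace_mul_fr {ρ : Matrix n n ℂ} (h : ρ.IsHermitian) (g : ℝ → ℝ) (σ : Matrix n n ℂ) :
    (trace (ρ * fr g σ)).re = ∑ i, ∑ j, ov ρ σ i j * (ev ρ i * g (ev σ j)) := by
  conv_lhs => rw [← fr_id h]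
  exact re_trace_fr_mul_fr _ _ _ _

lemma rel_eq {ρ : Matrix n n ℂ} (h : ρ.IsHermitian) (σ : Matrix n n ℂ) : rel ρ σ =
    ∑ i, ∑ j, ov ρ σ i j * (ev ρ i * (Real.log (ev ρ i) - Real.log (ev σ j))) := by
  rw [rel, re_trace_mul_fr h, ent, sum_ev_left _ ρ σ, ← Finset.sum_neg_distrib,
    ← Finset.sum_sub_distrib]
  refine Finset.sum_congr rfl fun i _ => ?_
  rw [← Finset.sum_neg_distrib, ← Finset.sum_sub_distrib]
  exact Finset.sum_congr rfl fun j _ => by rw [Real.negMulLog]; ring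

lemma AC.refl (ρ : Matrix n n ℂ) : AC ρ ρ := fun _ h => h

lemma AC.of_le {ρ σ : Matrix n n ℂ} (hρ : ρ.PosSemidef) {C : ℝ} (h : ρ ≤ (C : ℂ) • σ) :
    AC ρ σ := by
  intro v hv
  have h1 := re_inner_ap_mono h v
  rw [ap_smul, inner_smul_right, Complex.re_ofReal_mul, hv, mul_zero] at h1
  exact le_antisymm h1 (re_inner_ap_nonneg hρ v)

lemma AC.of_le' {ρ σ : Matrix n n ℂ} (hρ : ρ.PosSemidef) (h : ρ ≤ σ) : AC ρ σ :=
  AC.of_le hρ (C := 1) (by simpa using h)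

lemma AC.trans {ρ σ τ : Matrix n n ℂ} (h : AC ρ σ) (h' : AC σ τ) : AC ρ τ :=
  fun v hv => h v (h' v hv)


lemma AC.ov {ρ σ : Matrix n n ℂ} (h : AC ρ σ) (hρ : ρ.PosSemidef) (hσ : σ.IsHermitian) (i j : n)
    (hj : ev σ j = 0) : ov ρ σ i j * ev ρ i = 0 := by
  have h1 := h (evec σ j) (by rw [← ev_eq_re_inner hσ, hj])
  have h2 := re_inner_fr (fun x => x) ρ (evec σ j)
  rw [fr_id hρ.1, h1] at h2
  have h3 := (Finset.sum_eq_zero_iff_of_nonneg fun k _ =>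
    mul_nonneg (ev_nonneg hρ k) (sq_nonneg _)).1 h2.symm i (mem_univ i)
  rw [ov_comm, Q.ov, mul_comm, h3]

lemma re_inner_sum {K : Type*} (s : Finset K) (M : K → Matrix n n ℂ) (v : Vec n) :
    (⟪v, ap (∑ k ∈ s, M k) v⟫_ℂ).re = ∑ k ∈ s, (⟪v, ap (M k) v⟫_ℂ).re := by
  rw [ap_sum, inner_sum, Complex.re_sum]

lemma AC.sum {K : Type*} {s : Finset K} {ρ σ : K → Matrix n n ℂ}
    (hσ : ∀ k ∈ s, (σ k).PosSemidef) (h : ∀ k ∈ s, AC (ρ k) (σ k)) :
    AC (∑ k ∈ s, ρ k) (∑ k ∈ s, σ k) := by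
  intro v hv
  rw [re_inner_sum] at hv ⊢
  exact Finset.sum_eq_zero fun k hk => h k hk v
    ((Finset.sum_eq_zero_iff_of_nonneg fun k hk => re_inner_ap_nonneg (hσ k hk) v).1 hv k hk)

lemma inner_conj_rect (A : Matrix m n ℂ) (M : Matrix n n ℂ) (v : Vec m) :
    ⟪v, ap (A * M * Aᴴ) v⟫_ℂ = ⟪(WithLp.toLp 2 (Aᴴ *ᵥ v.ofLp) : Vec n),
      ap M (WithLp.toLp 2 (Aᴴ *ᵥ v.ofLp))⟫_ℂ := by
  rw [inner_eq, inner_eq, ofLp_ap, ofLp_ap]
  simp only [star_mulVec, conjTranspose_conjTranspose, ← mulVec_mulVec, dotProduct_mulVec]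

lemma AC.conj {ρ σ : Matrix n n ℂ} (h : AC ρ σ) (A : Matrix m n ℂ) :
    AC (A * ρ * Aᴴ) (A * σ * Aᴴ) := by
  intro v hv
  rw [inner_conj_rect] at hv ⊢
  exact h _ hv

/-! ### the variational formula -/

/-- the linear functionals of Kosaki's formula -/
noncomputable def Lin (t : ℝ) (Y ρ σ : Matrix n n ℂ) : ℝ :=
  2 * (trace (Yᴴ * ρ)).re - (trace (Y * Yᴴ * σ)).re - t * (trace (Yᴴ * Y * ρ)).re

/-- the resolvent form -/
noncomputable def Qf (t : ℝ) (ρ σ : Matrix n n ℂ) : ℝ :=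
  ∑ i, ∑ j, ov ρ σ i j * ev ρ i * ev ρ i / (ev σ j + t * ev ρ i)

lemma inner_parseval (A : Matrix n n ℂ) (v w : Vec n) :
    ⟪v, w⟫_ℂ = ∑ i, ⟪v, evec A i⟫_ℂ * ⟪evec A i, w⟫_ℂ := by
  have := inner_fc (fun _ => 1) A v w
  simpa [fc_one] using this

lemma lin_eq (t : ℝ) (Y : Matrix n n ℂ) {ρ σ : Matrix n n ℂ} (hρ : ρ.IsHermitian)
    (hσ : σ.IsHermitian) : Lin t Y ρ σ = ∑ i, ∑ j,
      (2 * ev ρ i * ((starRingEnd ℂ) ⟪evec σ j, ap Y (evec ρ i)⟫_ℂ * ⟪evec σ j, evec ρ i⟫_ℂ).re -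
        (ev σ j + t * ev ρ i) * ‖⟪evec σ j, ap Y (evec ρ i)⟫_ℂ‖ ^ 2) := by
  have e1 : (trace (Yᴴ * ρ)).re = ∑ i, ∑ j, ev ρ i *
      ((starRingEnd ℂ) ⟪evec σ j, ap Y (evec ρ i)⟫_ℂ * ⟪evec σ j, evec ρ i⟫_ℂ).re := by
    conv_lhs => rw [← fc_id hρ]
    rw [trace_mul_fc, Complex.re_sum]
    refine Finset.sum_congr rfl fun i _ => ?_
    rw [Complex.re_ofReal_mul, ← inner_ap_left, inner_parseval σ, Complex.re_sum, Finset.mul_sum]
    simp only [inner_conj_symm]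
  have e2 : (trace (Y * Yᴴ * σ)).re = ∑ i, ∑ j, ev σ j * ‖⟪evec σ j, ap Y (evec ρ i)⟫_ℂ‖ ^ 2 := by
    conv_lhs => rw [← fc_id hσ]
    rw [trace_mul_fc, Complex.re_sum, Finset.sum_comm]
    refine Finset.sum_congr rfl fun j _ => ?_
    have := norm_ap_sq Yᴴ (evec σ j)
    rw [conjTranspose_conjTranspose] at this
    rw [Complex.re_ofReal_mul, ← this, ← sum_sq_inner_evec ρ, Finset.mul_sum]
    refine Finset.sum_congr rfl fun i _ => ?_
    rw [← inner_ap_left, norm_inner_symm]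
  have e3 : (trace (Yᴴ * Y * ρ)).re = ∑ i, ∑ j, ev ρ i * ‖⟪evec σ j, ap Y (evec ρ i)⟫_ℂ‖ ^ 2 := by
    conv_lhs => rw [← fc_id hρ]
    rw [trace_mul_fc, Complex.re_sum]
    refine Finset.sum_congr rfl fun i _ => ?_
    rw [Complex.re_ofReal_mul, ← norm_ap_sq, ← sum_sq_inner_evec σ, Finset.mul_sum]
  rw [Lin, e1, e2, e3]
  simp only [Finset.mul_sum, ← Finset.sum_sub_distrib]
  exact Finset.sum_congr rfl fun i _ => Finset.sum_congr rfl fun j _ => by ring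

lemma lin_le {t : ℝ} (ht : 0 < t) (Y : Matrix n n ℂ) {ρ σ : Matrix n n ℂ} (hρ : ρ.PosSemidef)
    (hσ : σ.PosSemidef) : Lin t Y ρ σ ≤ Qf t ρ σ := by
  rw [lin_eq t Y hρ.1 hσ.1, Qf]
  refine Finset.sum_le_sum fun i _ => Finset.sum_le_sum fun j _ => ?_
  set y := ⟪evec σ j, ap Y (evec ρ i)⟫_ℂ
  set a := ⟪evec σ j, evec ρ i⟫_ℂ with ha
  have hov : ov ρ σ i j = ‖a‖ ^ 2 := rfl
  have hl := ev_nonneg hρ i
  have hm := ev_nonneg hσ j
  have h1 : ((starRingEnd ℂ) y * a).re ≤ ‖y‖ * ‖a‖ :=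
    (Complex.re_le_norm _).trans (by rw [norm_mul, Complex.norm_conj])
  rcases hl.eq_or_lt with h0 | h0
  · rw [← h0]; simp only [mul_zero, zero_mul, add_zero, zero_div, zero_sub, neg_nonpos]
    positivity
  · have hc : 0 < ev σ j + t * ev ρ i := by positivity
    rw [hov, le_div_iff₀ hc]
    have h2 : 2 * ev ρ i * ((starRingEnd ℂ) y * a).re ≤ 2 * ev ρ i * (‖y‖ * ‖a‖) := by gcongr
    nlinarith [sq_nonneg (‖a‖ * ev ρ i - (ev σ j + t * ev ρ i) * ‖y‖),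
      mul_le_mul_of_nonneg_right h2 hc.le]

lemma exists_lin (t : ℝ) {ρ σ : Matrix n n ℂ} (hρ : ρ.IsHermitian) (hσ : σ.IsHermitian) :
    ∃ Y, Lin t Y ρ σ = Qf t ρ σ := by
  let y : n → n → ℂ := fun i j =>
    ((ev ρ i / (ev σ j + t * ev ρ i) : ℝ) : ℂ) * ⟪evec σ j, evec ρ i⟫_ℂ
  refine ⟨∑ i, ∑ j, y i j • kb (evec σ j) (evec ρ i), ?_⟩
  have hy : ∀ i j, ⟪evec σ j, ap (∑ i, ∑ j, y i j • kb (evec σ j) (evec ρ i)) (evec ρ i)⟫_ℂ =
      y i j := by
    intro i j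
    simp only [ap_sum, ap_smul, ap_kb, inner_sum, inner_smul_right, inner_evec]
    rw [Finset.sum_eq_single i, Finset.sum_eq_single j] <;> simp +contextual [eq_comm]
  rw [lin_eq t _ hρ hσ, Qf]
  refine Finset.sum_congr rfl fun i _ => Finset.sum_congr rfl fun j _ => ?_
  rw [hy]
  have hov : ov ρ σ i j = ‖⟪evec σ j, evec ρ i⟫_ℂ‖ ^ 2 := rfl
  simp only [y, map_mul, Complex.conj_ofReal, mul_assoc, Complex.conj_mul', norm_mul,
    Complex.norm_real, mul_pow, Real.norm_eq_abs, sq_abs, hov]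
  rw [← Complex.ofReal_pow, ← Complex.ofReal_mul, Complex.ofReal_re]
  by_cases hc : ev σ j + t * ev ρ i = 0
  · simp [hc]
  · field_simp; ring

section scalar

variable {I : Type*} [Fintype I] {c l μ : I → ℝ}

private noncomputable def FF (c l μ : I → ℝ) (T : ℝ) : ℝ :=
  ∑ i, c i * l i * Real.log (μ i + T * l i)

private lemma FF_cont (hl : ∀ i, 0 ≤ l i) (hμ : ∀ i, 0 ≤ μ i) (h : ∀ i, μ i = 0 → c i * l i = 0) :
    ContinuousOn (FF c l μ) (Set.Ici 0) := by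
  refine continuousOn_finset_sum _ fun i _ => ?_
  rcases (hμ i).eq_or_lt with h0 | h0
  · simp only [h i h0.symm, zero_mul]; exact continuousOn_const
  · refine continuousOn_const.mul (ContinuousOn.log (by fun_prop) fun T hT => ?_)
    have := hl i
    have : (0 : ℝ) ≤ T := hT
    positivity

private lemma FF_deriv (hl : ∀ i, 0 ≤ l i) (hμ : ∀ i, 0 ≤ μ i) {T : ℝ} (hT : 0 < T) :
    HasDerivAt (FF c l μ) (∑ i, c i * l i * l i / (μ i + T * l i)) T := by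
  refine HasDerivAt.fun_sum fun i _ => ?_
  rcases (hl i).eq_or_lt with h0 | h0
  · simp only [← h0, mul_zero, zero_mul, zero_div]; exact hasDerivAt_const _ _
  · have h1 : μ i + T * l i ≠ 0 := by have := hμ i; positivity
    have h2 : HasDerivAt (fun T : ℝ => μ i + T * l i) (l i) T := by
      simpa using ((hasDerivAt_id T).mul_const (l i)).const_add (μ i)
    simpa [mul_div_assoc] using (h2.log h1).const_mul (c i * l i)

private lemma FF_lim (hl : ∀ i, 0 ≤ l i) (hμ : ∀ i, 0 ≤ μ i) :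
    Tendsto (fun T => FF c l μ T - (∑ i, c i * l i) * Real.log T) atTop
      (𝓝 (∑ i, c i * l i * Real.log (l i))) := by
  simp only [FF, Finset.sum_mul, ← Finset.sum_sub_distrib]
  refine tendsto_finset_sum _ fun i _ => ?_
  rcases (hl i).eq_or_lt with h0 | h0
  · simp only [← h0, mul_zero, zero_mul, sub_zero]; exact tendsto_const_nhds
  · have h1 : Tendsto (fun T : ℝ => μ i / T + l i) atTop (𝓝 (l i)) := by
      simpa using (tendsto_const_nhds.div_atTop tendsto_id).add_const (l i)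
    refine ((h1.log h0.ne').const_mul (c i * l i)).congr' ?_
    filter_upwards [eventually_gt_atTop 0] with T hT
    have h2 : 0 < μ i + T * l i := by have := hμ i; positivity
    rw [← mul_sub, ← Real.log_div h2.ne' hT.ne']
    congr 2
    field_simp

end scalar

/-- from the resolvent forms to the relative entropies -/
theorem rel_le_of_Qf {K : Type*} (s : Finset K) {ρ σ : Matrix m m ℂ} {ρ' σ' : K → Matrix n n ℂ}
    (hρ : ρ.PosSemidef) (hσ : σ.PosSemidef) (hac : AC ρ σ) (hρ' : ∀ k ∈ s, (ρ' k).PosSemidef)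
    (hσ' : ∀ k ∈ s, (σ' k).PosSemidef) (hac' : ∀ k ∈ s, AC (ρ' k) (σ' k))
    (htr : (trace ρ).re = ∑ k ∈ s, (trace (ρ' k)).re)
    (hQ : ∀ t, 0 < t → Qf t ρ σ ≤ ∑ k ∈ s, Qf t (ρ' k) (σ' k)) :
    rel ρ σ ≤ ∑ k ∈ s, rel (ρ' k) (σ' k) := by
  have key : ∀ {n : Type} [Fintype n] [DecidableEq n] {ρ σ : Matrix n n ℂ}, ρ.PosSemidef →
      σ.PosSemidef → AC ρ σ → ∃ F : ℝ → ℝ, ContinuousOn F (Set.Ici 0) ∧
        (∀ T, 0 < T → HasDerivAt F (Qf T ρ σ) T) ∧
        Tendsto (fun T => F T - F 0 - (trace ρ).re * Real.log T) atTop (𝓝 (rel ρ σ)) := by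
    intro n _ _ ρ σ hρ hσ hac
    have hl : ∀ p : n × n, 0 ≤ ev ρ p.1 := fun p => ev_nonneg hρ _
    have hm : ∀ p : n × n, 0 ≤ ev σ p.2 := fun p => ev_nonneg hσ _
    refine ⟨FF (fun p : n × n => ov ρ σ p.1 p.2) (fun p => ev ρ p.1) fun p => ev σ p.2,
      FF_cont hl hm fun p hp => hac.ov hρ hσ.1 _ _ hp, fun T hT => ?_, ?_⟩
    · have := FF_deriv (c := fun p : n × n => ov ρ σ p.1 p.2) hl hm hT
      rwa [Fintype.sum_prod_type] at this
    · have h1 := (FF_lim (c := fun p : n × n => ov ρ σ p.1 p.2) hl hm).sub_const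
        (FF (fun p : n × n => ov ρ σ p.1 p.2) (fun p => ev ρ p.1) (fun p => ev σ p.2) 0)
      convert h1 using 2 with T
      · rw [re_trace_eq hρ.1, sum_ev_left (fun x => x) ρ σ, Fintype.sum_prod_type]; ring
      · rw [rel_eq hρ.1, FF, ← Finset.sum_sub_distrib, Fintype.sum_prod_type]
        exact Finset.sum_congr rfl fun i _ => Finset.sum_congr rfl fun j _ => by
          simp only [zero_mul, add_zero]; ring
  obtain ⟨F, hF1, hF2, hF3⟩ := key hρ hσ hac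
  choose! G hG1 hG2 hG3 using fun k (hk : k ∈ s) => key (hρ' k hk) (hσ' k hk) (hac' k hk)
  have hder : ∀ T, 0 < T → HasDerivAt (fun T => ∑ k ∈ s, G k T - F T)
      (∑ k ∈ s, Qf T (ρ' k) (σ' k) - Qf T ρ σ) T := fun T hT =>
    (HasDerivAt.fun_sum fun k hk => hG2 k hk T hT).sub (hF2 T hT)
  have hmono : MonotoneOn (fun T => ∑ k ∈ s, G k T - F T) (Set.Ici 0) := by
    refine monotoneOn_of_deriv_nonneg (convex_Ici 0)
      ((continuousOn_finset_sum _ hG1).sub hF1) (fun T hT => ?_) fun T hT => ?_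
    · rw [interior_Ici] at hT
      exact (hder T hT).differentiableAt.differentiableWithinAt
    · rw [interior_Ici] at hT
      rw [(hder T hT).deriv]
      exact sub_nonneg.2 (hQ T hT)
  refine le_of_tendsto_of_tendsto hF3 (tendsto_finset_sum s hG3) ?_
  filter_upwards [eventually_ge_atTop 0] with T hT
  have := hmono (Set.self_mem_Ici) hT hT
  simp only [Finset.sum_sub_distrib, ← Finset.sum_mul, ← htr] at this ⊢
  linarith

/-- **joint convexity** (unnormalised form) -/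
theorem rel_sum_le {K : Type*} (s : Finset K) {ρ σ : K → Matrix n n ℂ}
    (hρ : ∀ k ∈ s, (ρ k).PosSemidef) (hσ : ∀ k ∈ s, (σ k).PosSemidef)
    (hac : ∀ k ∈ s, AC (ρ k) (σ k)) :
    rel (∑ k ∈ s, ρ k) (∑ k ∈ s, σ k) ≤ ∑ k ∈ s, rel (ρ k) (σ k) := by
  have h1 := posSemidef_sum s hρ
  have h2 := posSemidef_sum s hσ
  refine rel_le_of_Qf s h1 h2 (AC.sum hσ hac) hρ hσ hac (by rw [trace_sum, Complex.re_sum])
    fun t ht => ?_
  obtain ⟨Y, hY⟩ := exists_lin t h1.1 h2.1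
  rw [← hY]
  refine le_trans (le_of_eq ?_) (Finset.sum_le_sum fun k hk => lin_le ht Y (hρ k hk) (hσ k hk))
  simp only [Lin, Matrix.mul_sum, trace_sum, Complex.re_sum, Finset.sum_sub_distrib,
    Finset.mul_sum]

theorem rel_anti {ρ σ σ' : Matrix n n ℂ} (hρ : ρ.PosSemidef) (hσ : σ.PosSemidef) (hac : AC ρ σ)
    (h : σ ≤ σ') : rel ρ σ' ≤ rel ρ σ := by
  have hσ' : σ'.PosSemidef := (hσ.nonneg.trans h).posSemidef
  have := rel_le_of_Qf ({()} : Finset Unit) (ρ' := fun _ => ρ) (σ' := fun _ => σ) hρ hσ'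
    (hac.trans (AC.of_le' hσ h)) (fun _ _ => hρ) (fun _ _ => hσ) (fun _ _ => hac) (by simp)
    fun t ht => ?_
  · simpa using this
  · obtain ⟨Y, hY⟩ := exists_lin t hρ.1 hσ'.1
    rw [← hY, Finset.sum_singleton]
    refine le_trans ?_ (lin_le ht Y hρ hσ)
    have := re_trace_mul_mono h (posSemidef_self_mul_conjTranspose Y)
    rw [trace_mul_comm σ, trace_mul_comm σ'] at this
    unfold Lin; linarith

/-- Kadison-Schwarz inequality for unital Kraus maps -/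
lemma kadison {K : Type*} [Fintype K] {A : K → Matrix m n ℂ} (hA : ∑ k, (A k)ᴴ * A k = 1)
    (Y : Matrix m m ℂ) : (∑ k, (A k)ᴴ * Y * A k)ᴴ * (∑ k, (A k)ᴴ * Y * A k) ≤
      ∑ k, (A k)ᴴ * (Yᴴ * Y) * A k := by
  set Z := ∑ k, (A k)ᴴ * Y * A k with hZ
  have hZ' : Zᴴ = ∑ k, (A k)ᴴ * Yᴴ * A k := by
    simp only [hZ, conjTranspose_sum, conjTranspose_mul, conjTranspose_conjTranspose,
      Matrix.mul_assoc]
  have h1 := posSemidef_sum univ fun k _ =>
    posSemidef_conjTranspose_mul_self (Y * A k - A k * Z)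
  rw [Matrix.le_iff]
  have e1 : ∑ k, Zᴴ * ((A k)ᴴ * A k) * Z = Zᴴ * Z := by
    rw [← Matrix.sum_mul, ← Matrix.mul_sum, hA, Matrix.mul_one]
  have e2 : ∑ k, Zᴴ * ((A k)ᴴ * Y * A k) = Zᴴ * Z := by rw [← Matrix.mul_sum]
  have e3 : ∑ k, ((A k)ᴴ * Yᴴ * A k) * Z = Zᴴ * Z := by rw [← Matrix.sum_mul, hZ']
  have e4 : ∀ k, (Y * A k - A k * Z)ᴴ * (Y * A k - A k * Z) = (A k)ᴴ * (Yᴴ * Y) * A k -
      Zᴴ * ((A k)ᴴ * Y * A k) - ((A k)ᴴ * Yᴴ * A k) * Z + Zᴴ * ((A k)ᴴ * A k) * Z := by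
    intro k
    simp only [conjTranspose_sub, conjTranspose_mul, Matrix.sub_mul, Matrix.mul_sub,
      Matrix.mul_assoc]
    abel
  simp only [e4, Finset.sum_add_distrib, Finset.sum_sub_distrib, e1, e2, e3,
    sub_add_cancel] at h1
  exact h1

lemma trace_mul_kraus {K : Type*} [Fintype K] (A : K → Matrix m n ℂ) (Y : Matrix m m ℂ)
    (ρ : Matrix n n ℂ) :
    trace (Y * ∑ k, A k * ρ * (A k)ᴴ) = trace ((∑ k, (A k)ᴴ * Y * A k) * ρ) := by
  simp only [Matrix.mul_sum, Matrix.sum_mul, trace_sum]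
  refine Finset.sum_congr rfl fun k _ => ?_
  rw [← Matrix.mul_assoc, trace_mul_comm]
  simp only [Matrix.mul_assoc]

/-- **data processing** for Kraus maps -/
theorem rel_kraus_le {K : Type*} [Fintype K] {A : K → Matrix m n ℂ}
    (hA : ∑ k, (A k)ᴴ * A k = 1) {ρ σ : Matrix n n ℂ} (hρ : ρ.PosSemidef) (hσ : σ.PosSemidef)
    (hac : AC ρ σ) : rel (∑ k, A k * ρ * (A k)ᴴ) (∑ k, A k * σ * (A k)ᴴ) ≤ rel ρ σ := by
  have h1 := posSemidef_sum univ fun k _ => hρ.mul_mul_conjTranspose_same (A k)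
  have h2 := posSemidef_sum univ fun k _ => hσ.mul_mul_conjTranspose_same (A k)
  have := rel_le_of_Qf ({()} : Finset Unit) (ρ' := fun _ => ρ) (σ' := fun _ => σ) h1 h2
    (AC.sum (fun k _ => hσ.mul_mul_conjTranspose_same (A k)) fun k _ => hac.conj (A k))
    (fun _ _ => hρ) (fun _ _ => hσ) (fun _ _ => hac) ?_ fun t ht => ?_
  · simpa using this
  · have := trace_mul_kraus A 1 ρ
    simp only [Matrix.one_mul, Matrix.mul_one, hA] at this
    simp [this]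
  · obtain ⟨Y, hY⟩ := exists_lin t h1.1 h2.1
    rw [← hY, Finset.sum_singleton]
    refine le_trans ?_ (lin_le ht (∑ k, (A k)ᴴ * Y * A k) hρ hσ)
    have hZ' : (∑ k, (A k)ᴴ * Y * A k)ᴴ = ∑ k, (A k)ᴴ * Yᴴ * A k := by
      simp only [conjTranspose_sum, conjTranspose_mul, conjTranspose_conjTranspose,
        Matrix.mul_assoc]
    have k1 := re_trace_mul_mono (kadison hA Y) hρ
    have k2 := re_trace_mul_mono (kadison hA Yᴴ) hσ
    rw [← hZ', conjTranspose_conjTranspose, conjTranspose_conjTranspose] at k2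
    simp only [Lin, trace_mul_kraus]
    rw [← hZ']
    nlinarith

/-- Klein's inequality -/
theorem trace_sub_le_rel {ρ σ : Matrix n n ℂ} (hρ : ρ.PosSemidef) (hσ : σ.PosSemidef)
    (hac : AC ρ σ) : (trace ρ).re - (trace σ).re ≤ rel ρ σ := by
  rw [rel_eq hρ.1, re_trace_eq hρ.1, re_trace_eq hσ.1, sum_ev_left (fun x => x) ρ σ,
    sum_ev_right (fun x => x) ρ σ, ← Finset.sum_sub_distrib]
  refine Finset.sum_le_sum fun i _ => ?_
  rw [← Finset.sum_sub_distrib]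
  refine Finset.sum_le_sum fun j _ => ?_
  have ho := ov_nonneg ρ σ i j
  rcases (ev_nonneg hσ j).eq_or_lt with hm | hm
  · have := hac.ov hρ hσ.1 i j hm.symm
    rw [← mul_assoc, this, ← hm]; simp
  · rw [← mul_sub]
    refine mul_le_mul_of_nonneg_left ?_ ho
    rcases (ev_nonneg hρ i).eq_or_lt with hl | hl
    · rw [← hl]; simp [hm.le]
    · have := Real.log_le_sub_one_of_pos (div_pos hm hl)
      rw [Real.log_div hm.ne' hl.ne'] at this
      have h2 := mul_le_mul_of_nonneg_left this hl.le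
      have h3 : ev ρ i * (ev σ j / ev ρ i - 1) = ev σ j - ev ρ i := by field_simp
      linarith


/-- unnormalised subadditivity: `S(∑ ρ_k) ≤ ∑ S(ρ_k)` -/
theorem ent_sum_le {K : Type*} (s : Finset K) {ρ : K → Matrix n n ℂ}
    (hρ : ∀ k ∈ s, (ρ k).PosSemidef) : ent (∑ k ∈ s, ρ k) ≤ ∑ k ∈ s, ent (ρ k) := by
  rw [ent_eq (posSemidef_sum s hρ).1, Matrix.sum_mul, trace_sum, Complex.re_sum,
    ← Finset.sum_neg_distrib]
  refine Finset.sum_le_sum fun k hk => ?_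
  have h1 : ρ k ≤ ∑ k ∈ s, ρ k :=
    Finset.single_le_sum (f := ρ) (fun j hj => (hρ j hj).nonneg) hk
  have h2 := rel_anti (hρ k hk) (hρ k hk) (AC.refl _) h1
  rw [rel_self (hρ k hk).1, rel] at h2
  linarith

lemma fc_smul_arg (f : ℝ → ℂ) (c : ℝ) {ρ : Matrix n n ℂ} (hρ : ρ.IsHermitian) :
    fc f ((c : ℂ) • ρ) = fc (fun x => f (c * x)) ρ := by
  have : (c : ℂ) • ρ = fr (fun x => c * x) ρ := by
    conv_lhs => rw [← fc_id hρ, fc_smul]
    simp [fr]
  rw [this, fc_fr]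

lemma ent_smul {c : ℝ} {ρ : Matrix n n ℂ} (hρ : ρ.IsHermitian) :
    ent ((c : ℂ) • ρ) = c * ent ρ + Real.negMulLog c * (trace ρ).re := by
  rw [ent_eq_trace, fr, fc_smul_arg _ _ hρ, re_trace_fr (fun x => Real.negMulLog (c * x)), ent,
    re_trace_eq hρ, Finset.mul_sum, Finset.mul_sum, ← Finset.sum_add_distrib]
  exact Finset.sum_congr rfl fun i _ => by rw [Real.negMulLog_mul]; ring


end Crest.Agent.N336.Q
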