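import Crest.Agent.N336.Q.Bip

/-!
# Row 336, core: functional calculus of Hermitian matrices with complex values (helper87)

* `fc f A` : `U diag (f λ) U*` for Hermitian `A`, arbitrary `f : ℝ → ℂ`;  `fr g A` for `g : ℝ → ℝ`
* `fc_eq_aeval`, `map_fc` (algebra homomorphisms), `fc_intertwine`, `fc_spec`, `fr_eq_cfc`
* `ov A B i j = |⟨u_i, v_j⟩|²` and the two-spectra formula `trace_fc_mul_fc`
-/

set_option autoImplicit false
set_option linter.unusedSectionVars false

open Matrix Finset Polynomial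
open scoped Kronecker ComplexOrder MatrixOrder Matrix.Norms.L2Operator InnerProductSpace

namespace Crest.Agent.N336.Q

variable {n m : Type} [Fintype n] [DecidableEq n] [Fintype m] [DecidableEq m]

/-- eigenvector matrix (identity for non-Hermitian matrices) -/
noncomputable def eU (A : Matrix n n ℂ) : Matrix n n ℂ :=
  open Classical in if h : A.IsHermitian then (h.eigenvectorUnitary : Matrix n n ℂ) else 1

/-- eigenvalues (zero for non-Hermitian matrices) -/
noncomputable def ev (A : Matrix n n ℂ) (i : n) : ℝ :=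
  open Classical in if h : A.IsHermitian then h.eigenvalues i else 0

lemma ev_eq {A : Matrix n n ℂ} (h : A.IsHermitian) : ev A = h.eigenvalues := by
  funext i; simp [ev, h]

lemma eU_mul_star (A : Matrix n n ℂ) : eU A * (eU A)ᴴ = 1 := by
  unfold eU
  split_ifs with h
  · exact Unitary.coe_mul_star_self _
  · simp

lemma star_mul_eU (A : Matrix n n ℂ) : (eU A)ᴴ * eU A = 1 := by
  unfold eU
  split_ifs with h
  · exact Unitary.coe_star_mul_self _
  · simp

/-- functional calculus with complex values -/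
noncomputable def fc (f : ℝ → ℂ) (A : Matrix n n ℂ) : Matrix n n ℂ :=
  eU A * diagonal (fun i => f (ev A i)) * (eU A)ᴴ

/-- functional calculus with real values -/
noncomputable abbrev fr (g : ℝ → ℝ) (A : Matrix n n ℂ) : Matrix n n ℂ :=
  fc (fun x => (g x : ℂ)) A

lemma fc_id {A : Matrix n n ℂ} (h : A.IsHermitian) : fc (fun x => (x : ℂ)) A = A := by
  conv_rhs => rw [h.spectral_theorem]
  simp only [fc, eU, ev, h, dif_pos, Unitary.conjStarAlgAut_apply]
  rfl

lemma fr_id {A : Matrix n n ℂ} (h : A.IsHermitian) : fr (fun x => x) A = A := fc_id h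

lemma fr_eq_cfc (g : ℝ → ℝ) {A : Matrix n n ℂ} (h : A.IsHermitian) : fr g A = cfc g A := by
  rw [h.cfc_eq]
  simp only [fc, eU, ev, h, dif_pos, Matrix.IsHermitian.cfc, Unitary.conjStarAlgAut_apply]
  rfl

lemma fc_congr {f g : ℝ → ℂ} {A : Matrix n n ℂ} (h : ∀ i, f (ev A i) = g (ev A i)) :
    fc f A = fc g A := by
  simp only [fc, h]

lemma fc_mul (f g : ℝ → ℂ) (A : Matrix n n ℂ) :
    fc f A * fc g A = fc (fun x => f x * g x) A := by
  simp only [fc, Matrix.mul_assoc]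
  rw [← Matrix.mul_assoc (eU A)ᴴ, star_mul_eU, Matrix.one_mul, ← Matrix.mul_assoc (diagonal _),
    diagonal_mul_diagonal]

lemma fc_add (f g : ℝ → ℂ) (A : Matrix n n ℂ) :
    fc f A + fc g A = fc (fun x => f x + g x) A := by
  simp only [fc]
  rw [← Matrix.add_mul, ← Matrix.mul_add, diagonal_add]

lemma fc_sub (f g : ℝ → ℂ) (A : Matrix n n ℂ) :
    fc f A - fc g A = fc (fun x => f x - g x) A := by
  simp only [fc]
  rw [← Matrix.sub_mul, ← Matrix.mul_sub, diagonal_sub]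

lemma fc_smul (c : ℂ) (f : ℝ → ℂ) (A : Matrix n n ℂ) :
    c • fc f A = fc (fun x => c * f x) A := by
  simp only [fc]
  rw [← Matrix.smul_mul, ← Matrix.mul_smul, ← diagonal_smul]
  rfl


lemma fc_const (c : ℂ) (A : Matrix n n ℂ) : fc (fun _ => c) A = c • (1 : Matrix n n ℂ) := by
  simp only [fc]
  rw [← smul_one_eq_diagonal, Matrix.mul_smul, Matrix.mul_one, Matrix.smul_mul, eU_mul_star]

lemma fc_one (A : Matrix n n ℂ) : fc (fun _ => 1) A = 1 := by rw [fc_const, one_smul]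

lemma fc_zero (A : Matrix n n ℂ) : fc (fun _ => 0) A = 0 := by rw [fc_const, zero_smul]

lemma fc_sum {κ : Type*} (s : Finset κ) (f : κ → ℝ → ℂ) (A : Matrix n n ℂ) :
    ∑ k ∈ s, fc (f k) A = fc (fun x => ∑ k ∈ s, f k x) A := by
  classical
  induction s using Finset.induction_on with
  | empty => simp [fc_zero]
  | insert a s ha ih => simp only [Finset.sum_insert ha, ih, fc_add]

lemma fc_conjTranspose (f : ℝ → ℂ) (A : Matrix n n ℂ) :
    (fc f A)ᴴ = fc (fun x => star (f x)) A := by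
  simp only [fc, conjTranspose_mul, conjTranspose_conjTranspose, diagonal_conjTranspose,
    Matrix.mul_assoc]
  rfl

lemma fr_isHermitian (g : ℝ → ℝ) (A : Matrix n n ℂ) : (fr g A).IsHermitian := by
  unfold Matrix.IsHermitian
  rw [fc_conjTranspose]; simp

lemma fc_commute (f g : ℝ → ℂ) (A : Matrix n n ℂ) : Commute (fc f A) (fc g A) := by
  unfold Commute SemiconjBy
  simp only [fc_mul, mul_comm]

lemma fc_pow (f : ℝ → ℂ) (A : Matrix n n ℂ) (k : ℕ) :
    fc f A ^ k = fc (fun x => f x ^ k) A := by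
  induction k with
  | zero => simp [fc_one]
  | succ k ih => rw [pow_succ, ih, fc_mul]; simp only [pow_succ]

lemma trace_fc (f : ℝ → ℂ) (A : Matrix n n ℂ) : trace (fc f A) = ∑ i, f (ev A i) := by
  rw [fc, trace_mul_cycle, star_mul_eU, Matrix.one_mul, trace_diagonal]

lemma re_trace_fr (g : ℝ → ℝ) (A : Matrix n n ℂ) : (trace (fr g A)).re = ∑ i, g (ev A i) := by
  rw [trace_fc]; simp

lemma trace_eq_sum_ev {A : Matrix n n ℂ} (h : A.IsHermitian) :
    trace A = ((∑ i, ev A i : ℝ) : ℂ) := by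
  conv_lhs => rw [← fc_id h, trace_fc]
  simp

lemma fr_posSemidef {g : ℝ → ℝ} {A : Matrix n n ℂ} (h : ∀ i, 0 ≤ g (ev A i)) :
    (fr g A).PosSemidef :=
  (PosSemidef.diagonal fun i => Complex.zero_le_real.2 (h i)).mul_mul_conjTranspose_same _

lemma fr_le_fr {g k : ℝ → ℝ} {A : Matrix n n ℂ} (h : ∀ i, g (ev A i) ≤ k (ev A i)) :
    fr g A ≤ fr k A := by
  rw [Matrix.le_iff, fc_sub]
  have := fr_posSemidef (g := fun x => k x - g x) (A := A) fun i => sub_nonneg.2 (h i)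
  simpa [fr] using this

lemma ev_nonneg {A : Matrix n n ℂ} (h : A.PosSemidef) (i : n) : 0 ≤ ev A i := by
  rw [ev_eq h.1]; exact h.eigenvalues_nonneg i

lemma ev_pos {A : Matrix n n ℂ} (h : A.PosDef) (i : n) : 0 < ev A i := by
  rw [ev_eq h.1]; exact h.eigenvalues_pos i

lemma norm_eU_le (A : Matrix n n ℂ) : ‖eU A‖ ≤ 1 := by
  rw [← norm_ap]
  refine ContinuousLinearMap.opNorm_le_bound _ zero_le_one fun v => ?_
  rw [norm_ap_unitary (star_mul_eU A), one_mul]

lemma norm_fc_le {f : ℝ → ℂ} {A : Matrix n n ℂ} {C : ℝ} (hC : 0 ≤ C)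
    (h : ∀ i, ‖f (ev A i)‖ ≤ C) : ‖fc f A‖ ≤ C := by
  have h1 : ‖(diagonal (fun i => f (ev A i)) : Matrix n n ℂ)‖ ≤ C := by
    rw [l2_opNorm_diagonal]; exact (pi_norm_le_iff_of_nonneg hC).2 h
  have h2 := norm_eU_le A
  have h3 : ‖(eU A)ᴴ‖ ≤ 1 := by rw [l2_opNorm_conjTranspose]; exact h2
  calc ‖fc f A‖ ≤ ‖eU A‖ * ‖(diagonal (fun i => f (ev A i)) : Matrix n n ℂ)‖ * ‖(eU A)ᴴ‖ :=
        (norm_mul_le _ _).trans (by gcongr; exact norm_mul_le _ _)
    _ ≤ 1 * C * 1 := by gcongr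
    _ = C := by ring

/-- the `i`-th eigenvector -/
noncomputable def evec (A : Matrix n n ℂ) (i : n) : Vec n := WithLp.toLp 2 fun j => eU A j i

lemma inner_evec (A : Matrix n n ℂ) (i j : n) :
    ⟪evec A i, evec A j⟫_ℂ = if i = j then 1 else 0 := by
  have := congrFun (congrFun (star_mul_eU A) i) j
  rw [mul_apply, one_apply] at this
  rw [inner_eq_sum, ← this]
  rfl

lemma norm_evec (A : Matrix n n ℂ) (i : n) : ‖evec A i‖ = 1 := by
  have h := inner_evec A i i
  rw [if_pos rfl, inner_self_eq_norm_sq_to_K] at h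
  have h2 : ‖evec A i‖ ^ 2 = 1 := by
    have h3 : ((‖evec A i‖ ^ 2 : ℝ) : ℂ) = 1 := by rw [← h]; norm_cast
    exact_mod_cast h3
  exact (pow_eq_one_iff_of_nonneg (norm_nonneg _) two_ne_zero).1 h2

lemma fc_eq_sum (f : ℝ → ℂ) (A : Matrix n n ℂ) :
    fc f A = ∑ i, f (ev A i) • pj (evec A i) := by
  ext a b
  simp only [fc, mul_apply, diagonal_apply, mul_ite, mul_zero, Finset.sum_ite_eq',
    Finset.mem_univ, if_true, Matrix.sum_apply, Matrix.smul_apply, kb_apply, conjTranspose_apply,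
    smul_eq_mul, evec]
  exact Finset.sum_congr rfl fun i _ => by ring

lemma sum_pj_evec (A : Matrix n n ℂ) : ∑ i, pj (evec A i) = 1 := by
  rw [← fc_one A, fc_eq_sum]; simp

lemma ap_fc_evec (f : ℝ → ℂ) (A : Matrix n n ℂ) (i : n) :
    ap (fc f A) (evec A i) = f (ev A i) • evec A i := by
  rw [fc_eq_sum, ap_sum]
  simp only [ap_smul, ap_kb, inner_evec]
  rw [Finset.sum_eq_single i] <;> simp +contextual

lemma ap_evec {A : Matrix n n ℂ} (h : A.IsHermitian) (i : n) :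
    ap A (evec A i) = (ev A i : ℂ) • evec A i := by
  have := ap_fc_evec (fun x => (x : ℂ)) A i
  rwa [fc_id h] at this

lemma inner_fc (f : ℝ → ℂ) (A : Matrix n n ℂ) (v w : Vec n) :
    ⟪v, ap (fc f A) w⟫_ℂ = ∑ i, f (ev A i) * (⟪v, evec A i⟫_ℂ * ⟪evec A i, w⟫_ℂ) := by
  rw [fc_eq_sum, ap_sum, inner_sum]
  refine Finset.sum_congr rfl fun i _ => ?_
  rw [ap_smul, ap_kb, inner_smul_right, inner_smul_right]; ring

lemma inner_fc_self (f : ℝ → ℂ) (A : Matrix n n ℂ) (v : Vec n) :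
    ⟪v, ap (fc f A) v⟫_ℂ = ∑ i, f (ev A i) * ((‖⟪evec A i, v⟫_ℂ‖ ^ 2 : ℝ) : ℂ) := by
  rw [inner_fc]
  refine Finset.sum_congr rfl fun i _ => ?_
  rw [← inner_conj_symm v, Complex.conj_mul']; push_cast; ring

lemma re_inner_fr (g : ℝ → ℝ) (A : Matrix n n ℂ) (v : Vec n) :
    (⟪v, ap (fr g A) v⟫_ℂ).re = ∑ i, g (ev A i) * ‖⟪evec A i, v⟫_ℂ‖ ^ 2 := by
  rw [inner_fc_self, Complex.re_sum]
  refine Finset.sum_congr rfl fun i _ => ?_
  rw [← Complex.ofReal_mul, Complex.ofReal_re]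

lemma sum_sq_inner_evec (A : Matrix n n ℂ) (v : Vec n) :
    ∑ i, ‖⟪evec A i, v⟫_ℂ‖ ^ 2 = ‖v‖ ^ 2 := by
  have h := re_inner_fr (fun _ => 1) A v
  simp only [fr, Complex.ofReal_one, fc_one, ap_one, one_mul] at h
  rw [← h, inner_self_eq_norm_sq_to_K]; norm_cast

lemma norm_ap_fc_sq (f : ℝ → ℂ) (A : Matrix n n ℂ) (v : Vec n) :
    ‖ap (fc f A) v‖ ^ 2 = ∑ i, ‖f (ev A i)‖ ^ 2 * ‖⟪evec A i, v⟫_ℂ‖ ^ 2 := by
  rw [norm_ap_sq, fc_conjTranspose, fc_mul, ← re_inner_fr (fun x => ‖f x‖ ^ 2)]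
  congr 4
  refine fc_congr fun i => ?_
  rw [Complex.star_def, Complex.conj_mul']; norm_cast

lemma trace_mul_fc (M : Matrix n n ℂ) (f : ℝ → ℂ) (A : Matrix n n ℂ) :
    trace (M * fc f A) = ∑ i, f (ev A i) * ⟪evec A i, ap M (evec A i)⟫_ℂ := by
  rw [fc_eq_sum, Matrix.mul_sum, trace_sum]
  refine Finset.sum_congr rfl fun i _ => ?_
  rw [Matrix.mul_smul, trace_smul, trace_mul_kb, smul_eq_mul]

lemma abs_ev_le {A : Matrix n n ℂ} (h : A.IsHermitian) (i : n) : |ev A i| ≤ ‖A‖ := by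
  have h1 := norm_ap_le A (evec A i)
  rw [ap_evec h, norm_smul, norm_evec] at h1
  simpa using h1

lemma ev_eq_re_inner {A : Matrix n n ℂ} (h : A.IsHermitian) (i : n) :
    ev A i = (⟪evec A i, ap A (evec A i)⟫_ℂ).re := by
  rw [ap_evec h, inner_smul_right, inner_evec]; simp

/-! ### polynomial representation -/

lemma aeval_eq_fc {A : Matrix n n ℂ} (h : A.IsHermitian) (p : ℂ[X]) :
    aeval A p = fc (fun x => p.eval (x : ℂ)) A := by
  induction p using Polynomial.induction_on' with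
  | add p q hp hq => simp only [map_add, hp, hq, fc_add, eval_add]
  | monomial k a =>
    rw [aeval_monomial]
    conv_lhs => rw [← fc_id h, fc_pow, Algebra.algebraMap_eq_smul_one, smul_mul_assoc, one_mul,
      fc_smul]
    simp only [eval_monomial]

lemma exists_poly (S : Finset ℝ) (f : ℝ → ℂ) : ∃ p : ℂ[X], ∀ x ∈ S, p.eval (x : ℂ) = f x := by
  classical
  refine ⟨Lagrange.interpolate S (fun x : ℝ => (x : ℂ)) f, fun x hx => ?_⟩
  exact Lagrange.eval_interpolate_at_node f (Complex.ofReal_injective.injOn) hx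

/-- two Hermitian matrices: one polynomial for both -/
lemma exists_poly₂ (f : ℝ → ℂ) {A : Matrix n n ℂ} {B : Matrix m m ℂ} (hA : A.IsHermitian)
    (hB : B.IsHermitian) : ∃ p : ℂ[X], fc f A = aeval A p ∧ fc f B = aeval B p := by
  classical
  obtain ⟨p, hp⟩ := exists_poly (univ.image (ev A) ∪ univ.image (ev B)) f
  refine ⟨p, ?_, ?_⟩
  · rw [aeval_eq_fc hA]; exact fc_congr fun i => (hp _ (by simp)).symm
  · rw [aeval_eq_fc hB]; exact fc_congr fun i => (hp _ (by simp)).symm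

/-- algebra homomorphisms commute with the functional calculus -/
theorem map_fc (φ : Matrix n n ℂ →ₐ[ℂ] Matrix m m ℂ) (f : ℝ → ℂ) {A : Matrix n n ℂ}
    (hA : A.IsHermitian) (hB : (φ A).IsHermitian) : φ (fc f A) = fc f (φ A) := by
  obtain ⟨p, h1, h2⟩ := exists_poly₂ f hA hB
  rw [h1, h2, aeval_algHom_apply]

/-- intertwiners -/
theorem fc_intertwine (f : ℝ → ℂ) {A : Matrix n n ℂ} {B : Matrix m m ℂ} (hA : A.IsHermitian)
    (hB : B.IsHermitian) {V : Matrix n m ℂ} (h : A * V = V * B) : fc f A * V = V * fc f B := by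
  obtain ⟨p, h1, h2⟩ := exists_poly₂ f hA hB
  rw [h1, h2]
  clear h1 h2
  have hk : ∀ k : ℕ, A ^ k * V = V * B ^ k := by
    intro k
    induction k with
    | zero => simp
    | succ k ih => rw [pow_succ, Matrix.mul_assoc, h, ← Matrix.mul_assoc, ih, Matrix.mul_assoc,
        ← pow_succ]
  induction p using Polynomial.induction_on' with
  | add p q hp hq => simp only [map_add, Matrix.add_mul, Matrix.mul_add, hp, hq]
  | monomial k a =>
    simp only [aeval_monomial, Algebra.algebraMap_eq_smul_one, smul_mul_assoc, one_mul,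
      Matrix.smul_mul, Matrix.mul_smul, hk]

theorem commute_fc (f : ℝ → ℂ) {A B : Matrix n n ℂ} (hA : A.IsHermitian) (h : Commute A B) :
    Commute (fc f A) B := fc_intertwine f hA hA h

/-- membership in subalgebras -/
theorem fc_mem (S : Subalgebra ℂ (Matrix n n ℂ)) (f : ℝ → ℂ) {A : Matrix n n ℂ}
    (hA : A.IsHermitian) (h : A ∈ S) : fc f A ∈ S := by
  obtain ⟨p, h1, -⟩ := exists_poly₂ f hA hA
  rw [h1]
  exact (Algebra.adjoin_le (Set.singleton_subset_iff.2 h) : Algebra.adjoin ℂ {A} ≤ S)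
    (Polynomial.aeval_mem_adjoin_singleton ℂ A)

lemma fc_diagonal (f : ℝ → ℂ) (l : n → ℝ) :
    fc f (diagonal fun i => (l i : ℂ)) = diagonal fun i => f (l i) := by
  classical
  have hA : (diagonal fun i => (l i : ℂ)).IsHermitian := by
    rw [isHermitian_diagonal_iff]; intro i; simp [IsSelfAdjoint]
  obtain ⟨p, hp⟩ := exists_poly (univ.image (ev (diagonal fun i => (l i : ℂ))) ∪ univ.image l) f
  have h1 : fc f (diagonal fun i => (l i : ℂ)) = aeval (diagonal fun i => (l i : ℂ)) p := by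
    rw [aeval_eq_fc hA]; exact fc_congr fun i => (hp _ (by simp)).symm
  have h2 := aeval_algHom_apply (Matrix.diagonalAlgHom (n := n) ℂ (α := ℂ))
    (fun i => (l i : ℂ)) p
  simp only [diagonalAlgHom_apply] at h2
  rw [h1, h2]
  congr 1
  funext i
  rw [← hp (l i) (by simp)]
  have := aeval_algHom_apply (Pi.evalAlgHom ℂ (fun _ : n => ℂ) i) (fun i => (l i : ℂ)) p
  simp only [Pi.evalAlgHom_apply] at this
  rw [← this, coe_aeval_eq_eval]

/-- the functional calculus in any orthonormal eigenbasis -/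
theorem fc_spec (f : ℝ → ℂ) {U : Matrix n m ℂ} (h1 : Uᴴ * U = 1) (h2 : U * Uᴴ = 1) (l : m → ℝ) :
    fc f (U * diagonal (fun i => (l i : ℂ)) * Uᴴ) = U * diagonal (fun i => f (l i)) * Uᴴ := by
  have hD : (diagonal fun i => (l i : ℂ)).IsHermitian := by
    rw [isHermitian_diagonal_iff]; intro i; simp [IsSelfAdjoint]
  have hA : (U * diagonal (fun i => (l i : ℂ)) * Uᴴ).IsHermitian :=
    isHermitian_mul_mul_conjTranspose _ hD
  have := fc_intertwine f hA hD (V := U) (by rw [Matrix.mul_assoc, h1, Matrix.mul_one])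
  rw [← fc_diagonal f, ← this, Matrix.mul_assoc _ U, h2, Matrix.mul_one]

theorem fc_fr (f : ℝ → ℂ) (g : ℝ → ℝ) (A : Matrix n n ℂ) :
    fc f (fr g A) = fc (fun x => f (g x)) A :=
  fc_spec f (star_mul_eU A) (eU_mul_star A) fun i => g (ev A i)

theorem fc_conj (f : ℝ → ℂ) {A : Matrix m m ℂ} (hA : A.IsHermitian) {U : Matrix n m ℂ}
    (h1 : Uᴴ * U = 1) (h2 : U * Uᴴ = 1) : fc f (U * A * Uᴴ) = U * fc f A * Uᴴ := by
  have := fc_intertwine f (isHermitian_mul_mul_conjTranspose U hA) hA (V := U)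
    (by rw [Matrix.mul_assoc, h1, Matrix.mul_one])
  rw [← this, Matrix.mul_assoc _ U, h2, Matrix.mul_one]


/-- the non-zero spectra of `W Wᴴ` and `Wᴴ W` agree -/
theorem trace_fc_mul_conjTranspose {f : ℝ → ℂ} (f0 : f 0 = 0) (W : Matrix n m ℂ) :
    trace (fc f (W * Wᴴ)) = trace (fc f (Wᴴ * W)) := by
  have hA := isHermitian_mul_conjTranspose_self W
  have hB := isHermitian_conjTranspose_mul_self W
  let g : ℝ → ℂ := fun x => f x / x
  have hg : ∀ x : ℝ, f x = g x * x := by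
    intro x
    by_cases hx : x = 0
    · simp [hx, f0]
    · have : (x : ℂ) ≠ 0 := by exact_mod_cast hx
      simp only [g]; field_simp
  have e1 : fc f (W * Wᴴ) = fc g (W * Wᴴ) * (W * Wᴴ) := by
    conv_rhs => rw [← fc_id hA, fc_id hA, ← fc_id hA]
    rw [fc_id hA]
    conv_rhs => arg 2; rw [← fc_id hA]
    rw [fc_mul]; exact fc_congr fun i => hg _
  have e2 : fc f (Wᴴ * W) = fc g (Wᴴ * W) * (Wᴴ * W) := by
    conv_rhs => arg 2; rw [← fc_id hB]
    rw [fc_mul]; exact fc_congr fun i => hg _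
  have e3 := fc_intertwine g hA hB (V := W) (Matrix.mul_assoc _ _ _)
  rw [e1, e2, ← Matrix.mul_assoc, e3, trace_mul_cycle, trace_mul_comm]

/-! ### two spectra -/

/-- overlap of the eigenbases -/
noncomputable def ov (A B : Matrix n n ℂ) (i j : n) : ℝ := ‖⟪evec B j, evec A i⟫_ℂ‖ ^ 2

lemma ov_nonneg (A B : Matrix n n ℂ) (i j : n) : 0 ≤ ov A B i j := by unfold ov; positivity

lemma sum_ov_right (A B : Matrix n n ℂ) (i : n) : ∑ j, ov A B i j = 1 := by
  simp only [ov, sum_sq_inner_evec, norm_evec, one_pow]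

lemma ov_comm (A B : Matrix n n ℂ) (i j : n) : ov A B i j = ov B A j i := by
  rw [ov, ov, norm_inner_symm]

lemma sum_ov_left (A B : Matrix n n ℂ) (j : n) : ∑ i, ov A B i j = 1 := by
  simp only [ov_comm A B, sum_ov_right]

theorem trace_fc_mul_fc (f g : ℝ → ℂ) (A B : Matrix n n ℂ) :
    trace (fc f A * fc g B) = ∑ i, ∑ j, (ov A B i j : ℂ) * (f (ev A i) * g (ev B j)) := by
  rw [trace_mul_comm, trace_mul_fc]
  refine Finset.sum_congr rfl fun i _ => ?_
  rw [inner_fc_self, Finset.mul_sum]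
  exact Finset.sum_congr rfl fun j _ => by rw [ov]; ring

theorem re_trace_fr_mul_fr (f g : ℝ → ℝ) (A B : Matrix n n ℂ) :
    (trace (fr f A * fr g B)).re = ∑ i, ∑ j, ov A B i j * (f (ev A i) * g (ev B j)) := by
  rw [trace_fc_mul_fc]
  norm_cast

lemma sum_ev_left (f : ℝ → ℝ) (A B : Matrix n n ℂ) :
    ∑ i, f (ev A i) = ∑ i, ∑ j, ov A B i j * f (ev A i) := by
  simp only [← Finset.sum_mul, sum_ov_right, one_mul]

lemma sum_ev_right (f : ℝ → ℝ) (A B : Matrix n n ℂ) :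
    ∑ j, f (ev B j) = ∑ i, ∑ j, ov A B i j * f (ev B j) := by
  rw [Finset.sum_comm]
  simp only [← Finset.sum_mul, sum_ov_left, one_mul]

end Crest.Agent.N336.Q
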